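import Crest.Agent.Lib.Saxl.BaseCert

/-!
# Base shape `baseL 0 0` (row 195, S0298): certificates generated by a search program.
-/

set_option autoImplicit false
set_option maxRecDepth 1000000

namespace Crest.Agent.Saxl.Kron.B00

open Crest.Agent.Saxl Crest.Agent.Saxl.Family

/-- The triples. -/
def T : List Triple := [
  ([1],[1],[1]),
  ([1,1],[1,1],[1,1]),
  ([1,1,1],[1,1,1],[1,1,1]),
  ([1,1,1,1],[1,1,1,1],[1,1,1,1]),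
  ([2,1],[2,1],[2,1]),
  ([2,1],[1,1,1],[2,1]),
  ([2,2,1],[2,2,1],[2,2,1]),
  ([2,1,1,1],[2,1,1,1],[2,1,1,1]),
  ([2,2,1],[2,1,1,1],[2,1,1,1]),
  ([2,2,2,2,2],[4,3,2,1],[4,3,2,1]),
  ([1,1,1],[2,1],[2,1]),
  ([2,2,1],[2,2,1],[3,2]),
  ([3,1,1],[2,2,1],[2,2,1]),
  ([3,1,1],[2,1,1,1],[2,1,1,1]),
  ([2,2,1],[2,1,1,1],[3,2]),
  ([2,1,1],[2,1,1],[3,1]),
  ([3,3],[2,2,1,1],[2,2,1,1]),
  ([2,1,1,1],[2,2,1],[3,2]),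
  ([2,2,2,2],[3,2,2,1],[4,3,1]),
  ([4,2,1],[2,2,2,1],[2,2,2,1]),
  ([2,1,1,1,1],[3,2,1],[3,2,1]),
  ([2,1,1],[1,1,1,1],[2,1,1]),
  ([2,1,1,1,1],[2,2,1,1],[3,2,1]),
  ([2,2,2,2,2],[4,3,2,1],[4,3,2,1]),
  ([1,1,1,1,1,1],[3,2,1],[3,2,1])]

/-- Certificates, chunk 0. -/
def C0 : List Cert := [
  ⟨[0],[0],[0],1,1⟩,
  ⟨[0,1],[1,0],[0,1],1,1⟩,
  ⟨[0,1,2],[2,0,1],[0,1,2],1,1⟩,
  ⟨[0,1,2,3],[1,0,2,3],[0,3,1,2],1,1⟩,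
  ⟨[0,1,2],[0,1,2],[2,1,0],2,129⟩,
  ⟨[0,1,2],[2,4,0],[2,1,0],2,9⟩,
  ⟨[2,3,0,1,4],[2,3,0,1,4],[4,1,0,3,2],2,129⟩,
  ⟨[2,1,0,4,6],[0,1,6,2,4],[2,0,1,6,4],2,37⟩,
  ⟨[0,2,3,1,4],[2,4,1,0,6],[2,4,6,1,0],2,41⟩,
  ⟨[0,1,4,13,12,9,5,8,16,17],[12,1,0,2,4,5,6,8,3,9],[8,9,12,6,4,5,2,0,3,1],4,1152923703632199681⟩,
  ⟨[2,0,4],[0,1,2],[2,1,0],2,65⟩,
  ⟨[6,1,0,3,4],[1,3,6,4,0],[4,3,2,1,0],3,4162⟩,
  ⟨[3,1,2,0,6],[6,1,0,4,3],[0,6,1,4,3],3,5153⟩,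
  ⟨[0,1,2,3,6],[3,9,1,0,6],[9,1,6,0,3],3,2065⟩,
  ⟨[6,4,0,1,3],[9,0,1,6,3],[3,4,2,1,0],3,32785⟩,
  ⟨[0,1,3,6],[6,0,1,3],[3,2,1,0],3,4225⟩,
  ⟨[3,4,5,0,1,2],[6,9,1,0,3,4],[6,1,3,9,4,0],3,2065⟩,
  ⟨[0,1,3,6,9],[6,0,1,3,4],[3,2,1,0,4],3,4225⟩,
  ⟨[0,1,4,5,8,9,12,13],[0,5,8,4,12,2,9,1],[8,6,4,3,0,5,1,2],4,137473564673⟩,
  ⟨[8,2,5,4,1,0,3],[0,1,5,8,9,12,4],[0,12,1,8,5,4,9],4,2359425⟩,
  ⟨[3,0,1,6,9,12],[3,4,2,6,0,1],[6,1,2,3,0,4],3,33558529⟩,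
  ⟨[0,1,2,4],[4,6,0,2],[4,1,2,0],2,9⟩,
  ⟨[0,1,3,6,9,12],[6,0,4,3,9,1],[3,2,4,6,0,1],3,4225⟩,
  ⟨[0,1,4,13,12,9,5,8,16,17],[12,1,0,2,4,5,6,8,3,9],[8,9,12,6,4,5,2,0,3,1],4,1152923703632199681⟩,
  ⟨[0,6,12,3,9,15],[0,6,4,3,2,1],[6,0,1,3,2,4],3,16781313⟩]

theorem ok0 : (C0.all Cert.ok && C0.map Cert.tripleS == (T.drop 0).take 40) = true := by
  decide +kernel

theorem gT1 : ∀ t ∈ T.drop 40, t.Good := forall_drop_of_nil (by decide +kernel)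

theorem gT0 : ∀ t ∈ T.drop 0, t.Good := forall_drop_of_chunk 40 (good_of_chunk ok0) gT1

theorem gT : ∀ t ∈ T, t.Good := gT0

/-- The partitions, as column heights. -/
def PS : List (List ℕ) := [[1,1,1,1,1,1,1,1,1,1],[2,1,1,1,1,1,1,1,1],[2,2,1,1,1,1,1,1],[2,2,2,1,1,1,1],[2,2,2,2,1,1],[2,2,2,2,2],[3,1,1,1,1,1,1,1],[3,2,1,1,1,1,1],[3,2,2,1,1,1],[3,2,2,2,1],[3,3,1,1,1,1],[3,3,2,1,1],[3,3,2,2],[3,3,3,1],[4,1,1,1,1,1,1],[4,2,1,1,1,1],[4,2,2,1,1],[4,2,2,2],[4,3,1,1,1],[4,3,2,1],[4,3,3],[4,4,1,1],[4,4,2],[5,1,1,1,1,1],[5,2,1,1,1],[5,2,2,1],[5,3,1,1],[5,3,2],[5,4,1],[5,5],[6,1,1,1,1],[6,2,1,1],[6,2,2],[6,3,1],[6,4],[7,1,1,1],[7,2,1],[7,3],[8,1,1],[8,2],[9,1],[10]]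

theorem hPS : partsF 10 10 10 = PS := by decide +kernel

/-- The statement for one partition. -/
def G (c : List ℕ) : Prop := Real3 (c : Multiset ℕ) (([4, 3, 2, 1] : List ℕ) : Multiset ℕ) (([4, 3, 2, 1] : List ℕ) : Multiset ℕ)

/-- Table, chunk 0. -/
def D0 : List ℕ := [30789010128896,3758424128,3893002326,983144,1114216,144,3758424228,12080054272,983220,1114292,1769672,1769652,1868006,2162932,18522505216,983316,1114388,2392089,1769748,2556068,2162933,2392088,1868007,2654264,2916698,1769749,1114389,1769653,1114293,372,3178552,983317,1769673,983221,1114217,18522505217,12080054273,983145,3758424229,3893002327,3758424129,30789010128897]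

theorem tb0 : tableOK T [4, 3, 2, 1] ((PS.drop 0).take 100) (D0.map lineDer) = true := by
  decide +kernel

theorem gP1 : ∀ c ∈ PS.drop 100, G c := forall_drop_of_nil (by decide +kernel)

theorem gP0 : ∀ c ∈ PS.drop 0, G c := forall_drop_of_chunk 100 (tableOK_good gT tb0) gP1

theorem universal : Universal (cellsL (baseL 0 0)) (cellsL (baseL 0 0)).card := by
  rw [card_cellsL]
  exact universal_cellsL_of_all (good_baseL (by decide) (by decide)) (H := [4, 3, 2, 1]) (by decide)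
    (by simp) hPS gP0

end Crest.Agent.Saxl.Kron.B00
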