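import Crest.Agent.Lib.Saxl.BaseCert

/-!
# Base shape `baseL 0 1` (row 195, S0298): certificates generated by a search program.
-/

set_option autoImplicit false
set_option maxRecDepth 1000000

namespace Crest.Agent.Saxl.Kron.B01

open Crest.Agent.Saxl Crest.Agent.Saxl.Family

/-- The triples. -/
def T : List Triple := [
  ([1],[1],[1]),
  ([1,1,1],[1,1,1],[1,1,1]),
  ([1,1,1,1],[1,1,1,1],[1,1,1,1]),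
  ([2,1,1],[2,1,1],[2,1,1]),
  ([2,2],[2,1,1],[2,1,1]),
  ([2,1,1,1],[2,1,1,1],[2,1,1,1]),
  ([2,2,1,1],[2,2,2],[2,2,2]),
  ([2,2,1],[2,1,1,1],[2,1,1,1]),
  ([2,2,2,1],[2,2,2,1],[2,2,2,1]),
  ([2,1,1],[2,1,1],[3,1]),
  ([3,2,1,1],[2,2,2,1],[2,2,2,1]),
  ([3,1,1],[2,1,1,1],[2,1,1,1]),
  ([3,2,2],[2,2,2,1],[2,2,2,1]),
  ([2,2,2],[2,2,2],[3,3]),
  ([3,3,3,2],[4,3,3,1],[4,3,3,1]),
  ([3,1,1,1],[2,2,2],[3,3]),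
  ([4,2,1],[2,2,2,1],[2,2,2,1]),
  ([2,2,2,1],[2,2,2,1],[4,3]),
  ([2,2,2,2],[3,2,2,1],[4,3,1]),
  ([3,3,3,2],[4,3,3,1],[4,3,3,1]),
  ([3,1,1,1,1],[3,2,2],[3,3,1]),
  ([2,1,1],[1,1,1,1],[2,1,1]),
  ([3,1,1,1,1],[2,2,2,1],[3,3,1]),
  ([2,2,1,1,1],[2,2,2,1],[3,3,1]),
  ([2,1,1,1,1,1],[3,2,2],[3,3,1])]

/-- Certificates, chunk 0. -/
def C0 : List Cert := [
  ⟨[0],[0],[0],1,1⟩,
  ⟨[0,1,2],[2,0,1],[0,1,2],1,1⟩,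
  ⟨[0,1,2,3],[1,0,2,3],[0,3,1,2],1,1⟩,
  ⟨[2,0,1,4],[0,1,4,2],[4,1,2,0],2,67⟩,
  ⟨[3,2,0,1],[4,2,1,0],[2,1,0,4],2,22⟩,
  ⟨[2,1,0,4,6],[0,1,6,2,4],[2,0,1,6,4],2,37⟩,
  ⟨[4,6,2,3,0,1],[3,4,5,0,1,2],[0,1,2,3,4,5],2,28⟩,
  ⟨[0,2,3,1,4],[2,4,1,0,6],[2,4,6,1,0],2,41⟩,
  ⟨[2,1,0,3,4,5,6],[0,1,4,3,2,5,6],[6,5,4,1,2,3,0],2,129⟩,
  ⟨[0,1,3,6],[6,0,1,3],[3,2,1,0],3,4225⟩,
  ⟨[3,4,0,9,2,1,6],[7,0,1,9,3,6,4],[9,4,3,1,0,7,6],3,540⟩,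
  ⟨[0,1,2,3,6],[3,9,1,0,6],[9,1,6,0,3],3,2065⟩,
  ⟨[4,3,2,0,1,6,7],[4,6,9,3,1,0,7],[9,1,0,7,6,4,3],3,1036⟩,
  ⟨[0,1,7,3,4,6],[6,0,7,3,1,4],[5,0,1,2,4,3],3,8770⟩,
  ⟨[0,4,13,2,6,5,1,8,9,10,12],[4,12,5,2,6,9,3,8,1,10,0],[12,0,5,6,10,1,3,8,9,2,4],4,2305847407262302209⟩,
  ⟨[3,9,1,2,0,6],[1,6,0,7,3,4],[0,1,2,5,4,3],3,131720⟩,
  ⟨[8,2,5,4,1,0,3],[0,1,5,8,9,12,4],[0,12,1,8,5,4,9],4,2359425⟩,
  ⟨[9,8,4,1,0,5,12],[12,0,1,4,5,9,8],[2,5,4,6,0,3,1],4,536936976⟩,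
  ⟨[0,1,4,5,8,9,12,13],[0,5,8,4,12,2,9,1],[8,6,4,3,0,5,1,2],4,137473564673⟩,
  ⟨[0,4,13,2,6,5,1,8,9,10,12],[4,12,5,2,6,9,3,8,1,10,0],[12,0,5,6,10,1,3,8,9,2,4],4,2305847407262302209⟩,
  ⟨[9,3,1,6,2,0,12],[1,0,2,7,3,4,6],[6,1,5,0,2,3,4],3,33555208⟩,
  ⟨[0,1,2,4],[4,6,0,2],[4,1,2,0],2,9⟩,
  ⟨[0,1,2,3,9,6,12],[6,9,1,0,7,3,4],[6,5,2,3,1,0,4],3,135297⟩,
  ⟨[0,6,12,1,3,9,4],[0,1,6,7,9,4,3],[6,5,3,1,0,2,4],3,40977⟩,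
  ⟨[0,1,9,12,3,6,15],[0,4,3,7,2,6,1],[6,4,0,2,1,3,5],3,2138113⟩]

theorem ok0 : (C0.all Cert.ok && C0.map Cert.tripleS == (T.drop 0).take 40) = true := by
  decide +kernel

theorem gT1 : ∀ t ∈ T.drop 40, t.Good := forall_drop_of_nil (by decide +kernel)

theorem gT0 : ∀ t ∈ T.drop 0, t.Good := forall_drop_of_chunk 40 (good_of_chunk ok0) gT1

theorem gT : ∀ t ∈ T, t.Good := gT0

/-- The partitions, as column heights. -/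
def PS : List (List ℕ) := [[1,1,1,1,1,1,1,1,1,1,1],[2,1,1,1,1,1,1,1,1,1],[2,2,1,1,1,1,1,1,1],[2,2,2,1,1,1,1,1],[2,2,2,2,1,1,1],[2,2,2,2,2,1],[3,1,1,1,1,1,1,1,1],[3,2,1,1,1,1,1,1],[3,2,2,1,1,1,1],[3,2,2,2,1,1],[3,2,2,2,2],[3,3,1,1,1,1,1],[3,3,2,1,1,1],[3,3,2,2,1],[3,3,3,1,1],[3,3,3,2],[4,1,1,1,1,1,1,1],[4,2,1,1,1,1,1],[4,2,2,1,1,1],[4,2,2,2,1],[4,3,1,1,1,1],[4,3,2,1,1],[4,3,2,2],[4,3,3,1],[4,4,1,1,1],[4,4,2,1],[4,4,3],[5,1,1,1,1,1,1],[5,2,1,1,1,1],[5,2,2,1,1],[5,2,2,2],[5,3,1,1,1],[5,3,2,1],[5,3,3],[5,4,1,1],[5,4,2],[5,5,1],[6,1,1,1,1,1],[6,2,1,1,1],[6,2,2,1],[6,3,1,1],[6,3,2],[6,4,1],[6,5],[7,1,1,1,1],[7,2,1,1],[7,2,2],[7,3,1],[7,4],[8,1,1,1],[8,2,1],[8,3],[9,1,1],[9,2],[10,1],[11]]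

theorem hPS : partsF 11 11 11 = PS := by decide +kernel

/-- The statement for one partition. -/
def G (c : List ℕ) : Prop := Real3 (c : Multiset ℕ) (([4, 3, 3, 1] : List ℕ) : Multiset ℕ) (([4, 3, 3, 1] : List ℕ) : Multiset ℕ)

/-- Table, chunk 0. -/
def D0 : List ℕ := [21991843364864,2684551224,2684551240,852056,852088,1114184,2684551316,11274485760,852152,1114260,1638472,14227079208,1736792,1736824,1736888,224,16374562856,1998936,1998968,2162760,1999032,2162836,2261064,2261140,2392088,2261065,308,2654248,2916698,3047770,2392089,3047771,2162837,1736889,2162761,1736825,1638473,3178536,2916699,1999033,1998969,1736793,1114261,1114185,2654249,1998937,14227079209,852153,852089,16374562857,11274485761,852057,2684551317,2684551241,2684551225,21991843364865]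

theorem tb0 : tableOK T [4, 3, 3, 1] ((PS.drop 0).take 100) (D0.map lineDer) = true := by
  decide +kernel

theorem gP1 : ∀ c ∈ PS.drop 100, G c := forall_drop_of_nil (by decide +kernel)

theorem gP0 : ∀ c ∈ PS.drop 0, G c := forall_drop_of_chunk 100 (tableOK_good gT tb0) gP1

theorem universal : Universal (cellsL (baseL 0 1)) (cellsL (baseL 0 1)).card := by
  rw [card_cellsL]
  exact universal_cellsL_of_all (good_baseL (by decide) (by decide)) (H := [4, 3, 3, 1]) (by decide)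
    (by simp) hPS gP0

end Crest.Agent.Saxl.Kron.B01
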