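import Crest.Agent.Lib.Saxl.BaseCert

/-!
# Base shape `baseL 0 2` (row 195, S0298): certificates generated by a search program.
-/

set_option autoImplicit false
set_option maxRecDepth 1000000

namespace Crest.Agent.Saxl.Kron.B02

open Crest.Agent.Saxl Crest.Agent.Saxl.Family

/-- The triples. -/
def T : List Triple := [
  ([1,1],[1,1],[1,1]),
  ([1,1],[1,1],[1,1]),
  ([1,1,1,1],[1,1,1,1],[1,1,1,1]),
  ([1],[1],[1]),
  ([2,1],[2,1],[2,1]),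
  ([1,1],[1,1],[1,1]),
  ([2,2,1],[2,1,1,1],[2,1,1,1]),
  ([2,2,2],[2,2,1,1],[3,1,1,1]),
  ([1,1,1],[2,1],[2,1]),
  ([2,1,1,1],[2,1,1,1],[2,1,1,1]),
  ([2,1,1],[1,1,1,1],[2,1,1]),
  ([3,3,2],[4,2,1,1],[4,2,1,1]),
  ([4,1,1],[2,2,1,1],[2,2,1,1]),
  ([3,1,1,1],[2,2,1,1],[4,1,1]),
  ([2,1,1,1,1],[3,1,1,1],[4,1,1])]

/-- Certificates, chunk 0. -/
def C0 : List Cert := [
  ⟨[0,1],[1,0],[0,1],1,1⟩,
  ⟨[0,1],[1,0],[0,1],1,1⟩,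
  ⟨[0,1,2,3],[1,0,2,3],[0,3,1,2],1,1⟩,
  ⟨[0],[0],[0],1,1⟩,
  ⟨[0,1,2],[0,1,2],[2,1,0],2,129⟩,
  ⟨[0,1],[1,0],[0,1],1,1⟩,
  ⟨[0,2,3,1,4],[2,4,1,0,6],[2,4,6,1,0],2,41⟩,
  ⟨[0,7,1,3,4,6],[9,6,1,0,4,3],[0,2,1,6,9,3],3,9345⟩,
  ⟨[2,0,4],[0,1,2],[2,1,0],2,65⟩,
  ⟨[2,1,0,4,6],[0,1,6,2,4],[2,0,1,6,4],2,37⟩,
  ⟨[0,1,2,4],[4,6,0,2],[4,1,2,0],2,9⟩,
  ⟨[1,2,0,5,6,4,8,9],[12,1,5,4,8,3,2,0],[4,8,1,12,2,3,5,0],4,1152921573327635458⟩,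
  ⟨[0,1,3,2,4,8],[8,5,12,1,0,4],[8,12,5,1,0,4],4,4325505⟩,
  ⟨[0,2,1,4,8,12],[0,8,5,4,1,12],[4,3,1,8,2,0],4,18890753⟩,
  ⟨[0,1,8,12,4,16],[12,0,4,8,1,2],[4,3,0,8,2,1],4,68736262145⟩]

theorem ok0 : (C0.all Cert.ok && C0.map Cert.tripleS == (T.drop 0).take 40) = true := by
  decide +kernel

theorem gT1 : ∀ t ∈ T.drop 40, t.Good := forall_drop_of_nil (by decide +kernel)

theorem gT0 : ∀ t ∈ T.drop 0, t.Good := forall_drop_of_chunk 40 (good_of_chunk ok0) gT1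

theorem gT : ∀ t ∈ T, t.Good := gT0

/-- The partitions, as column heights. -/
def PS : List (List ℕ) := [[1,1,1,1,1,1,1,1],[2,1,1,1,1,1,1],[2,2,1,1,1,1],[2,2,2,1,1],[2,2,2,2],[3,1,1,1,1,1],[3,2,1,1,1],[3,2,2,1],[3,3,1,1],[3,3,2],[4,1,1,1,1],[4,2,1,1],[4,2,2],[4,3,1],[4,4],[5,1,1,1],[5,2,1],[5,3],[6,1,1],[6,2],[7,1],[8]]

theorem hPS : partsF 8 8 8 = PS := by decide +kernel

/-- The statement for one partition. -/
def G (c : List ℕ) : Prop := Real3 (c : Multiset ℕ) (([4, 2, 1, 1] : List ℕ) : Multiset ℕ) (([4, 2, 1, 1] : List ℕ) : Multiset ℕ)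

/-- Table, chunk 0. -/
def D0 : List ℕ := [2684551168,2684878896,2819260502,852032,983126,2685435952,1245316,852100,1343654,176,1638400,1736790,1343655,852101,983127,1867800,1245317,852033,2685435953,2819260503,2684878897,2684551169]

theorem tb0 : tableOK T [4, 2, 1, 1] ((PS.drop 0).take 100) (D0.map lineDer) = true := by
  decide +kernel

theorem gP1 : ∀ c ∈ PS.drop 100, G c := forall_drop_of_nil (by decide +kernel)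

theorem gP0 : ∀ c ∈ PS.drop 0, G c := forall_drop_of_chunk 100 (tableOK_good gT tb0) gP1

theorem universal : Universal (cellsL (baseL 0 2)) (cellsL (baseL 0 2)).card := by
  rw [card_cellsL]
  exact universal_cellsL_of_all (good_baseL (by decide) (by decide)) (H := [4, 2, 1, 1]) (by decide)
    (by simp) hPS gP0

end Crest.Agent.Saxl.Kron.B02
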