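import Crest.Agent.Lib.Saxl.BaseCert

/-!
# Base shape `baseL 0 3` (row 195, S0298): certificates generated by a search program.
-/

set_option autoImplicit false
set_option maxRecDepth 1000000

namespace Crest.Agent.Saxl.Kron.B03

open Crest.Agent.Saxl Crest.Agent.Saxl.Family

/-- The triples. -/
def T : List Triple := [
  ([1,1],[1,1],[1,1]),
  ([1,1,1,1],[1,1,1,1],[1,1,1,1]),
  ([1,1,1],[1,1,1],[1,1,1]),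
  ([2,1,1,1],[2,2,1],[2,2,1]),
  ([2,2,1],[2,2,1],[2,2,1]),
  ([2,2,2,1],[2,2,2,1],[2,2,2,1]),
  ([2,2,1,1],[2,2,1,1],[2,2,1,1]),
  ([2,2,1,1,1],[2,2,2,1],[2,2,2,1]),
  ([2,2,2,2],[2,2,2,2],[2,2,2,2]),
  ([3,1,1],[2,2,1],[2,2,1]),
  ([2,2,1],[2,2,1],[3,2]),
  ([3,2,2],[2,2,2,1],[2,2,2,1]),
  ([3,2,1],[2,2,1,1],[2,2,1,1]),
  ([3,3],[2,2,1,1],[2,2,1,1]),
  ([2,1,1,1,1,1],[2,2,2,1],[2,2,2,1]),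
  ([3,1,1,1,1],[2,2,2,1],[2,2,2,1]),
  ([3,2,1,1],[2,2,2,1],[2,2,2,1]),
  ([3,3,1],[2,2,2,1],[2,2,2,1]),
  ([2,1,1,1],[2,2,1],[3,2]),
  ([4,2,1],[2,2,2,1],[2,2,2,1]),
  ([4,1,1],[2,2,1,1],[2,2,1,1]),
  ([2,2,2,1],[2,2,2,1],[4,3]),
  ([4,2,2],[2,2,2,2],[2,2,2,2]),
  ([4,1,1,1],[2,2,2,1],[2,2,2,1]),
  ([2,2,2,2],[2,2,2,2],[4,4]),
  ([5,1,1,1,1],[3,3,2,1],[3,3,2,1]),
  ([4,2,1,1,1],[3,3,2,1],[4,3,2]),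
  ([3,3,1,1,1],[3,3,2,1],[4,3,2]),
  ([2,2,2,2,1,1],[3,3,2,2],[4,4,2]),
  ([2,2,2,2,2],[3,3,2,2],[4,4,2]),
  ([3,2,2,1,1],[3,3,2,1],[4,3,2]),
  ([3,3,2,1,1],[3,3,2,2],[4,4,2]),
  ([3,3,2,2,1],[3,3,3,2],[4,4,3]),
  ([3,3,3,1,1],[3,3,3,2],[4,4,3]),
  ([2,2,2,2,1],[3,3,2,1],[4,3,2]),
  ([4,1,1,1,1,1],[3,3,2,1],[4,3,2]),
  ([3,2,1,1,1,1],[3,3,2,1],[4,3,2]),
  ([2,2,2,1,1,1],[3,3,2,1],[4,3,2]),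
  ([3,1,1,1,1,1,1],[3,3,2,1],[4,3,2]),
  ([2,2,1,1,1,1,1],[3,3,2,1],[4,3,2]),
  ([2,1,1,1,1,1,1,1],[3,3,2,1],[4,3,2])]

/-- Certificates, chunk 0. -/
def C0 : List Cert := [
  ⟨[0,1],[1,0],[0,1],1,1⟩,
  ⟨[0,1,2,3],[1,0,2,3],[0,3,1,2],1,1⟩,
  ⟨[0,1,2],[2,0,1],[0,1,2],1,1⟩,
  ⟨[2,0,1,4,6],[0,1,2,3,4],[4,1,2,3,0],2,67⟩,
  ⟨[2,3,0,1,4],[2,3,0,1,4],[4,1,0,3,2],2,129⟩,
  ⟨[2,1,0,3,4,5,6],[0,1,4,3,2,5,6],[6,5,4,1,2,3,0],2,129⟩,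
  ⟨[2,3,0,1,4,6],[6,1,0,3,2,4],[2,3,0,1,6,4],2,129⟩,
  ⟨[2,3,4,6,8,0,1],[6,3,0,2,5,4,1],[0,5,4,6,1,2,3],2,193⟩,
  ⟨[0,1,2,3,4,5,6,7],[0,3,2,7,4,5,6,1],[2,7,6,1,0,5,4,3],2,129⟩,
  ⟨[3,1,2,0,6],[6,1,0,4,3],[0,6,1,4,3],3,5153⟩,
  ⟨[6,1,0,3,4],[1,3,6,4,0],[4,3,2,1,0],3,4162⟩,
  ⟨[4,3,2,0,1,6,7],[4,6,9,3,1,0,7],[9,1,0,7,6,4,3],3,1036⟩,
  ⟨[3,4,6,2,1,0],[0,6,3,4,1,9],[6,1,9,0,4,3],3,10257⟩,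
  ⟨[3,4,5,0,1,2],[6,9,1,0,3,4],[6,1,3,9,4,0],3,2065⟩,
  ⟨[0,1,4,6,2,8,10],[6,3,2,1,0,4,5],[2,3,0,1,4,6,5],2,193⟩,
  ⟨[9,0,1,2,3,6,12],[1,0,9,7,3,6,4],[9,1,6,0,7,4,3],3,2570⟩,
  ⟨[3,4,0,9,2,1,6],[7,0,1,9,3,6,4],[9,4,3,1,0,7,6],3,540⟩,
  ⟨[3,4,5,0,2,1,6],[9,0,4,1,7,6,3],[9,4,0,1,3,7,6],3,6161⟩,
  ⟨[0,1,3,6,9],[6,0,1,3,4],[3,2,1,0,4],3,4225⟩,
  ⟨[8,2,5,4,1,0,3],[0,1,5,8,9,12,4],[0,12,1,8,5,4,9],4,2359425⟩,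
  ⟨[0,1,3,2,4,8],[8,5,12,1,0,4],[8,12,5,1,0,4],4,4325505⟩,
  ⟨[9,8,4,1,0,5,12],[12,0,1,4,5,9,8],[2,5,4,6,0,3,1],4,536936976⟩,
  ⟨[4,5,2,8,9,0,1,3],[5,8,4,9,12,1,0,13],[0,5,4,8,13,12,9,1],4,8454180⟩,
  ⟨[1,4,3,8,2,0,12],[12,4,1,0,5,9,8],[1,0,12,4,5,9,8],4,5767201⟩,
  ⟨[0,1,4,13,5,8,9,12],[12,5,13,4,9,1,0,8],[4,1,2,7,5,6,3,0],4,18882561⟩,
  ⟨[15,5,10,3,0,1,2,4,20],[5,6,0,10,15,11,7,2,1],[15,1,0,2,5,11,7,10,6],5,4629700420158103553⟩,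
  ⟨[4,12,16,1,0,2,3,5,8],[12,1,0,2,9,8,6,4,5],[4,5,0,8,9,2,6,3,1],4,8804684014593⟩,
  ⟨[8,16,4,12,2,5,6,0,1],[8,12,9,2,0,6,4,5,1],[9,1,2,0,8,3,4,6,5],4,35188685930516⟩,
  ⟨[0,1,4,5,16,20,13,9,8,12],[1,0,2,8,9,12,4,13,5,6],[8,5,3,9,0,2,1,6,4,7],4,17592219664672⟩,
  ⟨[1,9,12,0,8,17,4,5,13,16],[1,0,2,12,9,8,6,13,4,5],[8,9,2,4,7,5,6,0,1,3],4,1099780194337⟩,
  ⟨[5,4,8,9,0,1,2,12,16],[12,9,1,0,2,4,8,6,5],[9,0,8,1,6,5,3,2,4],4,1099511709728⟩,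
  ⟨[16,1,4,12,2,0,5,8,9,6],[13,12,5,6,4,9,8,2,0,1],[0,9,8,7,2,4,1,3,5,6],4,17592253219872⟩,
  ⟨[16,13,8,9,12,5,6,0,4,1,2],[12,13,6,8,10,9,4,2,0,1,5],[1,2,0,3,4,10,9,8,5,6,7],4,5402271824⟩,
  ⟨[16,12,1,10,9,6,0,4,2,5,8],[13,2,8,1,12,0,10,9,5,4,6],[6,4,5,7,9,10,8,2,3,1,0],4,5385487392⟩,
  ⟨[12,13,0,1,8,9,4,5,16],[12,5,6,1,4,0,2,9,8],[4,5,6,9,8,3,2,1,0],4,1099513733121⟩,
  ⟨[16,4,3,2,8,0,1,12,20],[12,1,8,2,9,4,6,5,0],[1,0,2,3,8,9,6,4,5],4,72567767500816⟩,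
  ⟨[8,12,16,20,5,2,0,1,4],[8,0,9,6,5,4,12,1,2],[5,9,3,6,4,8,1,0,2],4,1099780194324⟩,
  ⟨[5,12,0,1,4,16,8,9,20],[12,9,6,4,5,8,2,0,1],[5,4,6,1,0,3,2,9,8],4,1099511697440⟩,
  ⟨[12,24,4,8,1,16,2,0,20],[12,9,8,2,4,1,0,5,6],[2,1,6,0,3,9,4,5,8],4,4296024324⟩,
  ⟨[16,8,20,12,0,4,5,24,1],[12,9,8,5,4,1,6,2,0],[1,0,5,4,9,8,2,3,6],4,19791209366032⟩]

theorem ok0 : (C0.all Cert.ok && C0.map Cert.tripleS == (T.drop 0).take 40) = true := by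
  decide +kernel

/-- Certificates, chunk 1. -/
def C1 : List Cert := [
  ⟨[8,20,4,12,16,24,0,1,28],[12,9,2,8,1,0,5,4,6],[4,5,6,0,1,8,9,2,3],4,18691698721281⟩]

theorem ok1 : (C1.all Cert.ok && C1.map Cert.tripleS == (T.drop 40).take 40) = true := by
  decide +kernel

theorem gT2 : ∀ t ∈ T.drop 80, t.Good := forall_drop_of_nil (by decide +kernel)

theorem gT1 : ∀ t ∈ T.drop 40, t.Good := forall_drop_of_chunk 40 (good_of_chunk ok1) gT2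

theorem gT0 : ∀ t ∈ T.drop 0, t.Good := forall_drop_of_chunk 40 (good_of_chunk ok0) gT1

theorem gT : ∀ t ∈ T, t.Good := gT0

/-- The partitions, as column heights. -/
def PS : List (List ℕ) := [[1,1,1,1,1,1,1,1,1,1,1,1,1],[2,1,1,1,1,1,1,1,1,1,1,1],[2,2,1,1,1,1,1,1,1,1,1],[2,2,2,1,1,1,1,1,1,1],[2,2,2,2,1,1,1,1,1],[2,2,2,2,2,1,1,1],[2,2,2,2,2,2,1],[3,1,1,1,1,1,1,1,1,1,1],[3,2,1,1,1,1,1,1,1,1],[3,2,2,1,1,1,1,1,1],[3,2,2,2,1,1,1,1],[3,2,2,2,2,1,1],[3,2,2,2,2,2],[3,3,1,1,1,1,1,1,1],[3,3,2,1,1,1,1,1],[3,3,2,2,1,1,1],[3,3,2,2,2,1],[3,3,3,1,1,1,1],[3,3,3,2,1,1],[3,3,3,2,2],[3,3,3,3,1],[4,1,1,1,1,1,1,1,1,1],[4,2,1,1,1,1,1,1,1],[4,2,2,1,1,1,1,1],[4,2,2,2,1,1,1],[4,2,2,2,2,1],[4,3,1,1,1,1,1,1],[4,3,2,1,1,1,1],[4,3,2,2,1,1],[4,3,2,2,2],[4,3,3,1,1,1],[4,3,3,2,1],[4,3,3,3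],[4,4,1,1,1,1,1],[4,4,2,1,1,1],[4,4,2,2,1],[4,4,3,1,1],[4,4,3,2],[4,4,4,1],[5,1,1,1,1,1,1,1,1],[5,2,1,1,1,1,1,1],[5,2,2,1,1,1,1],[5,2,2,2,1,1],[5,2,2,2,2],[5,3,1,1,1,1,1],[5,3,2,1,1,1],[5,3,2,2,1],[5,3,3,1,1],[5,3,3,2],[5,4,1,1,1,1],[5,4,2,1,1],[5,4,2,2],[5,4,3,1],[5,4,4],[5,5,1,1,1],[5,5,2,1],[5,5,3],[6,1,1,1,1,1,1,1],[6,2,1,1,1,1,1],[6,2,2,1,1,1],[6,2,2,2,1],[6,3,1,1,1,1],[6,3,2,1,1],[6,3,2,2],[6,3,3,1],[6,4,1,1,1],[6,4,2,1],[6,4,3],[6,5,1,1],[6,5,2],[6,6,1],[7,1,1,1,1,1,1],[7,2,1,1,1,1],[7,2,2,1,1],[7,2,2,2],[7,3,1,1,1],[7,3,2,1],[7,3,3],[7,4,1,1],[7,4,2],[7,5,1],[7,6],[8,1,1,1,1,1],[8,2,1,1,1],[8,2,2,1],[8,3,1,1],[8,3,2],[8,4,1],[8,5],[9,1,1,1,1],[9,2,1,1],[9,2,2],[9,3,1],[9,4],[10,1,1,1],[10,2,1],[10,3],[11,1,1],[11,2],[12,1],[13]]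

theorem hPS : partsF 13 13 13 = PS := by decide +kernel

/-- The statement for one partition. -/
def G (c : List ℕ) : Prop := Real3 (c : Multiset ℕ) (([4, 4, 3, 2] : List ℕ) : Multiset ℕ) (([4, 4, 3, 2] : List ℕ) : Multiset ℕ)

/-- Table, chunk 0. -/
def D0 : List ℕ := [13196824084488,3758293016,4832034840,5905776648,983144,721000,1114184,10200743960,11006050328,12348227592,983240,721096,1114276,14495842328,1900760,983256,721112,2031832,2162904,1507544,2293976,19595984920,20938162184,983368,721224,1114404,22817210376,2163016,1507656,2949284,2294088,2556120,2785496,3080520,2556232,2949412,2785608,3178660,2785497,3342360,3440664,3571736,3702825,3833897,3964952,4096040,4227081,4358152,2785609,4489240,4227080,2949413,2556121,2293977,3833896,2949285,1507545,4620312,4751384,4882457,4489241,4882456,4096041,2556233,2294089,3702824,1507657,2162905,1114405,721113,1114277,5013528,5144600,3964953,3080521,3571737,2163017,2031833,721225,983257,721097,1114185,5275672,3440665,22817210377,983369,1900761,983241,721001,3342361,20938162185,14495842329,12348227593,983145,19595984921,11006050329,5905776649,10200743961,4832034841,3758293017]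

theorem tb0 : tableOK T [4, 4, 3, 2] ((PS.drop 0).take 100) (D0.map lineDer) = true := by
  decide +kernel

/-- Table, chunk 1. -/
def D1 : List ℕ := [13196824084489]

theorem tb1 : tableOK T [4, 4, 3, 2] ((PS.drop 100).take 100) (D1.map lineDer) = true := by
  decide +kernel

theorem gP2 : ∀ c ∈ PS.drop 200, G c := forall_drop_of_nil (by decide +kernel)

theorem gP1 : ∀ c ∈ PS.drop 100, G c := forall_drop_of_chunk 100 (tableOK_good gT tb1) gP2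

theorem gP0 : ∀ c ∈ PS.drop 0, G c := forall_drop_of_chunk 100 (tableOK_good gT tb0) gP1

theorem universal : Universal (cellsL (baseL 0 3)) (cellsL (baseL 0 3)).card := by
  rw [card_cellsL]
  exact universal_cellsL_of_all (good_baseL (by decide) (by decide)) (H := [4, 4, 3, 2]) (by decide)
    (by simp) hPS gP0

end Crest.Agent.Saxl.Kron.B03
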