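import Crest.Agent.Lib.Saxl.BaseCert

/-!
# Base shape `baseL 1 1` (row 195, S0298): certificates generated by a search program.
-/

set_option autoImplicit false
set_option maxRecDepth 1000000

namespace Crest.Agent.Saxl.Kron.B11

open Crest.Agent.Saxl Crest.Agent.Saxl.Family

/-- The triples. -/
def T : List Triple := [
  ([1,1,1],[1,1,1],[1,1,1]),
  ([1,1,1,1,1],[1,1,1,1,1],[1,1,1,1,1]),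
  ([1,1],[1,1],[1,1]),
  ([1,1],[1,1],[1,1]),
  ([1],[1],[1]),
  ([2,1],[2,1],[2,1]),
  ([1,1],[1,1],[1,1]),
  ([2,2],[2,1,1],[2,1,1]),
  ([2,2,1],[1,1,1,1,1],[2,2,1]),
  ([2,2,2],[2,1,1,1,1],[3,2,1]),
  ([1,1,1],[2,1],[2,1]),
  ([2,1,1],[2,1,1],[3,1]),
  ([3,1,1],[1,1,1,1,1],[3,1,1]),
  ([3,2,1],[2,1,1,1,1],[3,2,1]),
  ([2,2,1],[2,2,1],[3,2]),
  ([3,1,1,1],[2,1,1,1,1],[2,1,1,1,1]),
  ([2,2,2],[2,1,1,1,1],[3,2,1]),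
  ([2,2,2],[3,2,1],[3,2,1]),
  ([2,1,1,1],[2,2,1],[3,2]),
  ([2,1],[1,1,1],[2,1]),
  ([1,1,1,1],[2,1,1],[2,1,1]),
  ([2,2,1,1],[2,1,1,1,1],[2,1,1,1,1]),
  ([2,2,1,1],[2,1,1,1,1],[3,2,1]),
  ([2,2,1,1],[3,2,1],[3,2,1]),
  ([3,1,1,1],[2,1,1,1,1],[3,2,1]),
  ([1,1,1,1,1],[3,1,1],[3,1,1]),
  ([2,1,1,1,1],[3,2,1],[3,2,1]),
  ([2,1,1,1,1],[2,1,1,1,1],[2,1,1,1,1]),
  ([2,2,2,1],[2,2,1,1,1],[2,2,1,1,1]),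
  ([3,2,1,1],[2,2,1,1,1],[2,2,1,1,1]),
  ([4,1,1,1],[2,2,1,1,1],[2,2,1,1,1]),
  ([1,1,1,1,1,1],[3,2,1],[3,2,1])]

/-- Certificates, chunk 0. -/
def C0 : List Cert := [
  ⟨[0,1,2],[2,0,1],[0,1,2],1,1⟩,
  ⟨[0,1,2,3,4],[2,0,1,3,4],[0,3,1,4,2],1,1⟩,
  ⟨[0,1],[1,0],[0,1],1,1⟩,
  ⟨[0,1],[1,0],[0,1],1,1⟩,
  ⟨[0],[0],[0],1,1⟩,
  ⟨[0,1,2],[0,1,2],[2,1,0],2,129⟩,
  ⟨[0,1],[1,0],[0,1],1,1⟩,
  ⟨[3,2,0,1],[4,2,1,0],[2,1,0,4],2,22⟩,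
  ⟨[0,1,2,3,4],[4,8,2,0,6],[4,3,2,1,0],2,9⟩,
  ⟨[4,3,7,0,1,6],[9,12,3,1,0,6],[6,1,0,2,3,4],3,32778⟩,
  ⟨[2,0,4],[0,1,2],[2,1,0],2,65⟩,
  ⟨[0,1,3,6],[6,0,1,3],[3,2,1,0],3,4225⟩,
  ⟨[0,3,6,1,2],[0,6,9,12,3],[6,3,0,2,1],3,161⟩,
  ⟨[1,0,2,3,4,6],[9,12,0,1,3,6],[6,4,2,3,0,1],3,778⟩,
  ⟨[6,1,0,3,4],[1,3,6,4,0],[4,3,2,1,0],3,4162⟩,
  ⟨[0,2,1,3,6,9],[12,1,0,9,6,3],[9,3,1,0,6,12],3,2065⟩,
  ⟨[4,3,7,0,1,6],[9,12,3,1,0,6],[6,1,0,2,3,4],3,32778⟩,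
  ⟨[1,0,3,4,6,7],[6,1,2,0,4,3],[0,4,2,3,1,6],3,16781314⟩,
  ⟨[0,1,3,6,9],[6,0,1,3,4],[3,2,1,0,4],3,4225⟩,
  ⟨[0,1,2],[2,4,0],[2,1,0],2,9⟩,
  ⟨[0,2,4,6],[2,0,1,4],[2,4,1,0],2,65⟩,
  ⟨[0,1,2,3,4,6],[6,1,2,8,4,0],[4,6,2,1,0,8],2,41⟩,
  ⟨[3,0,1,4,6,9],[0,1,3,6,9,12],[6,1,4,2,3,0],3,4241⟩,
  ⟨[3,0,4,1,6,9],[6,4,3,2,1,0],[3,4,2,0,1,6],3,528513⟩,
  ⟨[0,2,1,3,6,9],[3,6,0,12,1,9],[6,4,2,3,1,0],3,4257⟩,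
  ⟨[0,3,12,6,9],[3,6,0,1,2],[6,0,3,1,2],3,16781313⟩,
  ⟨[3,0,1,6,9,12],[3,4,2,6,0,1],[6,1,2,3,0,4],3,33558529⟩,
  ⟨[0,1,2,4,6,8],[8,0,2,4,6,1],[6,1,2,8,4,0],2,25⟩,
  ⟨[2,4,5,3,0,6,1],[8,6,4,3,2,0,1],[4,8,1,0,6,2,3],2,169⟩,
  ⟨[6,4,3,1,0,2,9],[0,1,12,9,3,4,6],[6,3,0,1,9,4,12],3,17425⟩,
  ⟨[0,3,1,2,4,8,12],[8,1,0,5,12,4,16],[12,8,1,5,16,4,0],4,4718625⟩,
  ⟨[0,6,12,3,9,15],[0,6,4,3,2,1],[6,0,1,3,2,4],3,16781313⟩]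

theorem ok0 : (C0.all Cert.ok && C0.map Cert.tripleS == (T.drop 0).take 40) = true := by
  decide +kernel

theorem gT1 : ∀ t ∈ T.drop 40, t.Good := forall_drop_of_nil (by decide +kernel)

theorem gT0 : ∀ t ∈ T.drop 0, t.Good := forall_drop_of_chunk 40 (good_of_chunk ok0) gT1

theorem gT : ∀ t ∈ T, t.Good := gT0

/-- The partitions, as column heights. -/
def PS : List (List ℕ) := [[1,1,1,1,1,1,1,1,1,1,1,1],[2,1,1,1,1,1,1,1,1,1,1],[2,2,1,1,1,1,1,1,1,1],[2,2,2,1,1,1,1,1,1],[2,2,2,2,1,1,1,1],[2,2,2,2,2,1,1],[2,2,2,2,2,2],[3,1,1,1,1,1,1,1,1,1],[3,2,1,1,1,1,1,1,1],[3,2,2,1,1,1,1,1],[3,2,2,2,1,1,1],[3,2,2,2,2,1],[3,3,1,1,1,1,1,1],[3,3,2,1,1,1,1],[3,3,2,2,1,1],[3,3,2,2,2],[3,3,3,1,1,1],[3,3,3,2,1],[3,3,3,3],[4,1,1,1,1,1,1,1,1],[4,2,1,1,1,1,1,1],[4,2,2,1,1,1,1],[4,2,2,2,1,1],[4,2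,2,2,2],[4,3,1,1,1,1,1],[4,3,2,1,1,1],[4,3,2,2,1],[4,3,3,1,1],[4,3,3,2],[4,4,1,1,1,1],[4,4,2,1,1],[4,4,2,2],[4,4,3,1],[4,4,4],[5,1,1,1,1,1,1,1],[5,2,1,1,1,1,1],[5,2,2,1,1,1],[5,2,2,2,1],[5,3,1,1,1,1],[5,3,2,1,1],[5,3,2,2],[5,3,3,1],[5,4,1,1,1],[5,4,2,1],[5,4,3],[5,5,1,1],[5,5,2],[6,1,1,1,1,1,1],[6,2,1,1,1,1],[6,2,2,1,1],[6,2,2,2],[6,3,1,1,1],[6,3,2,1],[6,3,3],[6,4,1,1],[6,4,2],[6,5,1],[6,6],[7,1,1,1,1,1],[7,2,1,1,1],[7,2,2,1],[7,3,1,1],[7,3,2],[7,4,1],[7,5],[8,1,1,1,1],[8,2,1,1],[8,2,2],[8,3,1],[8,4],[9,1,1,1],[9,2,1],[9,3],[10,1,1],[10,2],[11,1],[12]]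

theorem hPS : partsF 12 12 12 = PS := by decide +kernel

/-- The statement for one partition. -/
def G (c : List ℕ) : Prop := Real3 (c : Multiset ℕ) (([5, 3, 2, 1, 1] : List ℕ) : Multiset ℕ) (([5, 3, 2, 1, 1] : List ℕ) : Multiset ℕ)

/-- Table, chunk 0. -/
def D0 : List ℕ := [30788473257992,4403415416896,54982426689544,1611595856,9127936032,10201677888,1245338,4409052561472,1612087376,1611595940,9262628966,1245398,1612087460,16644866112,17449435200,1245446,2031892,1736966,2130182,1613004832,1747484982,23087841344,23891886144,1245542,16645390400,2031988,1737062,2130310,2130278,3178886,3178854,2916710,2130279,2130183,1613922360,3604900,2818468,3735956,2032036,3867028,3178855,2130311,3998100,1737063,1736967,1245543,1245447,33554628672,3604980,2818548,3178887,2032116,2031989,2031893,23891886145,17449435201,1245399,1245339,33554628673,3604901,16645390401,23087841345,16644866113,9262628967,10201677889,1613922361,1747484983,1612087461,1611595941,9127936033,1613004833,1612087377,1611595857,4409052561473,54982426689545,4403415416897,30788473257993]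

theorem tb0 : tableOK T [5, 3, 2, 1, 1] ((PS.drop 0).take 100) (D0.map lineDer) = true := by
  decide +kernel

theorem gP1 : ∀ c ∈ PS.drop 100, G c := forall_drop_of_nil (by decide +kernel)

theorem gP0 : ∀ c ∈ PS.drop 0, G c := forall_drop_of_chunk 100 (tableOK_good gT tb0) gP1

theorem universal : Universal (cellsL (baseL 1 1)) (cellsL (baseL 1 1)).card := by
  rw [card_cellsL]
  exact universal_cellsL_of_all (good_baseL (by decide) (by decide)) (H := [5, 3, 2, 1, 1]) (by decide)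
    (by simp) hPS gP0

end Crest.Agent.Saxl.Kron.B11
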