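import Crest.Agent.Lib.Saxl.BaseCert

/-!
# Base shape `baseL 1 2` (row 195, S0298): certificates generated by a search program.
-/

set_option autoImplicit false
set_option maxRecDepth 1000000

namespace Crest.Agent.Saxl.Kron.B12

open Crest.Agent.Saxl Crest.Agent.Saxl.Family

/-- The triples. -/
def T : List Triple := [
  ([1],[1],[1]),
  ([1,1,1,1],[1,1,1,1],[1,1,1,1]),
  ([1,1,1],[1,1,1],[1,1,1]),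
  ([1,1,1,1,1],[1,1,1,1,1],[1,1,1,1,1]),
  ([2,1,1],[2,1,1],[2,1,1]),
  ([2,2],[2,1,1],[2,1,1]),
  ([2,2,2,1],[2,2,2,1],[2,2,2,1]),
  ([2,2,1],[2,1,1,1],[2,1,1,1]),
  ([2,2,1,1,1],[2,2,2,1],[2,2,2,1]),
  ([2,2,2,2],[2,2,2,2],[2,2,2,2]),
  ([2,2,2,1,1],[2,2,2,1,1],[2,2,2,1,1]),
  ([2,2,2,2],[2,2,2,1,1],[2,2,2,1,1]),
  ([2,1,1],[2,1,1],[3,1]),
  ([3,2,1,1],[2,2,2,1],[2,2,2,1]),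
  ([3,2,2],[2,2,2,1],[2,2,2,1]),
  ([3,1,1],[2,1,1,1],[2,1,1,1]),
  ([3,2,2,2],[2,2,2,2,1],[2,2,2,2,1]),
  ([3,2,2,1],[2,2,2,1,1],[2,2,2,1,1]),
  ([2,2,2,2],[3,2,2,1],[3,2,2,1]),
  ([3,3,1],[2,2,2,1],[2,2,2,1]),
  ([2,1,1],[1,1,1,1],[2,1,1]),
  ([2,1,1,1],[1,1,1,1,1],[2,1,1,1]),
  ([3,3,2],[2,2,2,1,1],[2,2,2,2]),
  ([3,3,1,1],[2,2,2,2],[2,2,2,2]),
  ([3,3,2],[2,2,2,1,1],[2,2,2,1,1]),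
  ([3,3,3],[2,2,2,2,1],[2,2,2,2,1]),
  ([3,2,2,1],[2,2,2,1,1],[2,2,2,2]),
  ([3,3,2],[3,2,2,1],[3,2,2,1]),
  ([4,1,1,1],[2,2,2,1],[2,2,2,1]),
  ([4,2,1],[2,2,2,1],[2,2,2,1]),
  ([4,2,2],[2,2,2,2],[2,2,2,2]),
  ([2,2,2,1],[2,2,2,1],[4,3]),
  ([4,3,2],[2,2,2,2,1],[2,2,2,2,1]),
  ([4,2,2],[3,2,2,1],[3,2,2,1]),
  ([3,3,1,1],[2,2,2,1,1],[2,2,2,1,1]),
  ([4,3,1],[2,2,2,1,1],[2,2,2,1,1]),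
  ([4,3,1],[2,2,2,1,1],[2,2,2,2]),
  ([2,2,2,2],[2,2,2,2],[4,4]),
  ([3,2,1,1,1],[2,2,2,1,1],[2,2,2,1,1]),
  ([2,2,2,2],[3,2,2,1],[4,3,1]),
  ([4,1,1,1,1],[2,2,2,1,1],[2,2,2,1,1]),
  ([4,2,1,1],[2,2,2,1,1],[2,2,2,1,1]),
  ([4,2,2],[2,2,2,1,1],[2,2,2,1,1]),
  ([4,4,1],[2,2,2,2,1],[2,2,2,2,1]),
  ([5,1,1,1],[3,2,2,1],[3,2,2,1]),
  ([5,1,1,1],[2,2,2,2],[3,2,2,1]),
  ([3,2,1,1,1],[2,2,2,2],[4,3,1]),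
  ([5,2,2],[2,2,2,2,1],[3,2,2,1,1]),
  ([3,2,1,1,1],[3,2,2,1],[4,3,1]),
  ([2,2,2,1,1,1],[2,2,2,2,1],[2,2,2,2,1]),
  ([2,2,2,2,1],[2,2,2,2,1],[2,2,2,2,1]),
  ([2,2,2,2],[2,2,2,1,1],[3,2,2,1]),
  ([3,3,1,1,1],[2,2,2,2,1],[4,4,1]),
  ([2,2,2,1,1],[3,2,2,1],[4,3,1]),
  ([2,2,2,1,1],[2,2,2,2],[4,3,1]),
  ([2,2,1,1,1,1,1],[2,2,2,2,1],[2,2,2,2,1]),
  ([3,1,1,1,1,1,1],[2,2,2,2,1],[2,2,2,2,1]),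
  ([3,2,1,1,1,1],[2,2,2,2,1],[2,2,2,2,1]),
  ([3,2,2,1,1],[2,2,2,2,1],[2,2,2,2,1]),
  ([3,3,1,1,1],[2,2,2,2,1],[2,2,2,2,1]),
  ([3,3,2,1],[2,2,2,2,1],[2,2,2,2,1]),
  ([2,2,2,2,1],[3,2,2,1,1],[5,3,1]),
  ([2,2,2,2,1],[2,2,2,2,1],[4,4,1]),
  ([4,2,1,1,1],[2,2,2,2,1],[2,2,2,2,1]),
  ([4,2,2,1],[2,2,2,2,1],[2,2,2,2,1]),
  ([4,2,2],[2,2,2,2],[3,2,2,1]),
  ([4,1,1,1,1,1],[2,2,2,2,1],[2,2,2,2,1]),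
  ([4,3,1,1],[2,2,2,2,1],[2,2,2,2,1]),
  ([2,2,2,2],[2,2,2,1,1],[4,3,1]),
  ([5,1,1,1,1],[2,2,2,2,1],[3,2,2,1,1]),
  ([5,2,1,1],[2,2,2,2,1],[3,2,2,1,1]),
  ([3,2,2,1,1],[2,2,2,2,1],[5,3,1]),
  ([5,1,1,1],[2,2,2,1,1],[3,2,2,1]),
  ([3,2,1,1,1],[2,2,2,1,1],[4,3,1]),
  ([2,2,2,1,1],[2,2,2,1,1],[4,3,1]),
  ([3,1,1,1,1,1],[3,2,2,1],[4,3,1]),
  ([2,2,1,1,1,1],[3,2,2,1],[4,3,1]),
  ([2,1,1,1,1,1,1,1],[2,2,2,2,1],[2,2,2,2,1]),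
  ([2,2,2,1,1,1],[3,2,2,1,1],[5,3,1]),
  ([2,2,2,1,1,1],[3,2,2,1,1],[4,4,1]),
  ([2,2,2,2,2,1],[3,3,3,2],[4,4,3]),
  ([2,1,1,1,1],[2,1,1,1,1],[2,1,1,1,1]),
  ([2,2,2,2,2,2],[3,3,3,2,1],[5,4,3]),
  ([5,1,1,1,1,1,1],[3,3,3,2],[4,4,3]),
  ([4,2,1,1,1,1,1],[3,3,3,2],[4,4,3]),
  ([3,3,1,1,1,1,1],[3,3,3,2],[4,4,3]),
  ([2,2,1,1],[2,1,1,1,1],[2,1,1,1,1]),
  ([3,2,2,1,1,1,1],[3,3,3,2],[4,4,3]),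
  ([3,1,1,1],[2,1,1,1,1],[2,1,1,1,1]),
  ([2,2,2,2,1,1,1],[3,3,3,2],[4,4,3]),
  ([4,1,1,1,1,1,1,1],[3,3,3,2],[4,4,3]),
  ([3,2,1,1,1,1,1,1],[3,3,3,2],[4,4,3]),
  ([2,2,2,1,1,1,1,1],[3,3,3,2],[4,4,3]),
  ([3,1,1,1,1,1,1,1,1],[3,3,3,2],[4,4,3])]

/-- Certificates, chunk 0. -/
def C0 : List Cert := [
  ⟨[0],[0],[0],1,1⟩,
  ⟨[0,1,2,3],[1,0,2,3],[0,3,1,2],1,1⟩,
  ⟨[0,1,2],[2,0,1],[0,1,2],1,1⟩,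
  ⟨[0,1,2,3,4],[2,0,1,3,4],[0,3,1,4,2],1,1⟩,
  ⟨[2,0,1,4],[0,1,4,2],[4,1,2,0],2,67⟩,
  ⟨[3,2,0,1],[4,2,1,0],[2,1,0,4],2,22⟩,
  ⟨[2,1,0,3,4,5,6],[0,1,4,3,2,5,6],[6,5,4,1,2,3,0],2,129⟩,
  ⟨[0,2,3,1,4],[2,4,1,0,6],[2,4,6,1,0],2,41⟩,
  ⟨[2,3,4,6,8,0,1],[6,3,0,2,5,4,1],[0,5,4,6,1,2,3],2,193⟩,
  ⟨[0,1,2,3,4,5,6,7],[0,3,2,7,4,5,6,1],[2,7,6,1,0,5,4,3],2,129⟩,
  ⟨[6,1,0,8,3,4,5,2],[6,4,5,8,2,3,0,1],[2,3,8,0,1,6,5,4],2,25⟩,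
  ⟨[6,7,0,3,2,5,4,1],[6,5,8,4,2,3,0,1],[6,8,2,3,4,5,0,1],2,169⟩,
  ⟨[0,1,3,6],[6,0,1,3],[3,2,1,0],3,4225⟩,
  ⟨[3,4,0,9,2,1,6],[7,0,1,9,3,6,4],[9,4,3,1,0,7,6],3,540⟩,
  ⟨[4,3,2,0,1,6,7],[4,6,9,3,1,0,7],[9,1,0,7,6,4,3],3,1036⟩,
  ⟨[0,1,2,3,6],[3,9,1,0,6],[9,1,6,0,3],3,2065⟩,
  ⟨[6,7,0,2,1,3,4,9,10],[10,0,1,9,6,7,3,4,12],[12,10,3,9,1,0,7,6,4],3,532⟩,
  ⟨[3,4,7,6,2,0,1,9],[9,7,4,0,3,12,1,6],[0,9,1,3,4,6,7,12],3,9249⟩,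
  ⟨[0,1,3,7,4,6,9,10],[0,7,9,1,2,3,6,4],[9,7,6,4,2,3,0,1],3,33562625⟩,
  ⟨[3,4,5,0,2,1,6],[9,0,4,1,7,6,3],[9,4,0,1,3,7,6],3,6161⟩,
  ⟨[0,1,2,4],[4,6,0,2],[4,1,2,0],2,9⟩,
  ⟨[0,1,2,4,6],[2,4,6,0,8],[6,1,4,0,2],2,9⟩,
  ⟨[0,1,2,3,4,5,6,7],[12,9,4,3,6,7,1,0],[4,9,10,1,3,7,0,6],3,16906⟩,
  ⟨[6,3,4,5,9,0,1,2],[10,9,0,7,3,4,6,1],[9,10,3,1,4,0,6,7],3,16906⟩,
  ⟨[7,6,4,5,1,0,2,3],[9,4,3,12,6,7,0,1],[7,0,1,3,4,9,6,12],3,532⟩,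
  ⟨[1,6,8,0,2,7,3,4,5],[12,3,7,6,1,9,10,0,4],[10,12,9,3,6,4,7,1,0],3,6161⟩,
  ⟨[3,4,0,1,2,6,7,9],[9,1,3,4,6,12,7,0],[1,6,7,3,0,10,9,4],3,1036⟩,
  ⟨[3,4,0,2,1,5,6,7],[9,4,6,3,1,2,0,7],[9,7,6,2,1,0,3,4],3,1057025⟩,
  ⟨[1,4,3,8,2,0,12],[12,4,1,0,5,9,8],[1,0,12,4,5,9,8],4,5767201⟩,
  ⟨[8,2,5,4,1,0,3],[0,1,5,8,9,12,4],[0,12,1,8,5,4,9],4,2359425⟩,
  ⟨[4,5,2,8,9,0,1,3],[5,8,4,9,12,1,0,13],[0,5,4,8,13,12,9,1],4,8454180⟩,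
  ⟨[9,8,4,1,0,5,12],[12,0,1,4,5,9,8],[2,5,4,6,0,3,1],4,536936976⟩,
  ⟨[8,9,4,1,2,0,3,5,6],[16,5,12,13,8,4,1,9,0],[5,8,9,4,16,1,13,12,0],4,8519700⟩,
  ⟨[1,4,0,3,2,5,8,9],[4,5,2,8,1,12,9,0],[12,5,4,9,2,0,1,8],4,4363124866⟩,
  ⟨[6,4,3,5,9,1,0,2],[6,12,0,7,3,4,9,1],[0,1,9,7,6,12,3,4],3,17425⟩,
  ⟨[0,2,8,5,3,1,4,6],[12,16,8,9,5,1,0,4],[16,1,0,4,5,8,12,9],4,8519745⟩,
  ⟨[8,2,0,5,3,1,4,6],[8,16,12,9,1,5,4,0],[13,12,1,4,5,8,9,0],4,8519700⟩,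
  ⟨[0,1,4,13,5,8,9,12],[12,5,13,4,9,1,0,8],[4,1,2,7,5,6,3,0],4,18882561⟩,
  ⟨[6,12,0,1,2,3,4,9],[9,1,0,4,7,3,12,6],[6,7,9,12,1,0,4,3],3,21521⟩,
  ⟨[0,1,4,5,8,9,12,13],[0,5,8,4,12,2,9,1],[8,6,4,3,0,5,1,2],4,137473564673⟩]

theorem ok0 : (C0.all Cert.ok && C0.map Cert.tripleS == (T.drop 0).take 40) = true := by
  decide +kernel

/-- Certificates, chunk 1. -/
def C1 : List Cert := [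
  ⟨[0,2,1,3,4,8,12,16],[12,5,4,9,8,0,16,1],[12,16,1,9,8,0,4,5],4,9699361⟩,
  ⟨[4,5,0,2,1,3,8,12],[8,1,12,5,9,16,4,0],[12,5,4,16,1,9,8,0],4,2359425⟩,
  ⟨[0,1,2,3,8,9,4,5],[12,16,5,1,4,9,0,8],[16,5,12,1,4,0,8,9],4,8781857⟩,
  ⟨[4,8,1,3,6,0,2,5,7],[16,4,12,5,1,0,9,8,13],[16,0,1,9,8,12,4,5,13],4,8650785⟩,
  ⟨[3,15,2,4,1,5,0,10],[15,0,11,1,2,5,6,10],[1,0,2,15,6,5,11,10],5,72057733087494401⟩,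
  ⟨[5,10,15,1,2,0,3,4],[0,1,5,11,6,16,15,10],[15,1,0,2,10,11,6,5],5,69927436561⟩,
  ⟨[0,1,2,8,5,12,4,16],[0,13,8,9,1,12,5,4],[8,5,3,2,1,4,6,0],4,18890753⟩,
  ⟨[1,0,2,4,3,5,6,10,11],[20,6,1,11,15,16,0,10,5],[15,20,10,6,2,5,11,1,0],5,17347649634⟩,
  ⟨[4,5,8,1,12,0,2,16],[0,5,1,2,4,9,12,8],[8,2,1,6,4,5,3,0],4,2199057874945⟩,
  ⟨[8,10,6,1,0,2,3,4,5],[3,2,7,6,4,8,5,1,0],[8,5,4,6,7,1,3,0,2],2,150⟩,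
  ⟨[2,1,0,3,5,4,6,7,8],[6,7,0,3,5,4,2,1,8],[8,1,6,3,7,4,0,5,2],2,129⟩,
  ⟨[1,0,6,7,9,4,3,10],[0,12,1,9,4,3,7,6],[9,2,4,0,1,6,7,3],3,4162⟩,
  ⟨[0,8,12,2,1,4,5,6,16],[12,13,0,1,4,16,8,9,5],[8,2,0,3,5,4,1,7,6],4,1090519073⟩,
  ⟨[4,5,8,9,0,1,12,16],[9,4,5,0,8,2,12,1],[8,2,4,6,5,3,1,0],4,35184372154896⟩,
  ⟨[8,9,0,4,1,5,12,16],[13,4,12,1,0,9,5,8],[8,6,5,4,2,3,0,1],4,536936976⟩,
  ⟨[0,1,2,3,4,8,6,10,12],[2,3,8,1,7,4,5,6,0],[8,7,0,5,1,4,3,6,2],2,193⟩,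
  ⟨[15,3,9,0,1,2,12,6,18],[12,4,3,10,6,9,1,0,7],[1,0,10,9,12,7,6,4,3],3,554⟩,
  ⟨[0,1,2,9,15,12,6,3,4],[12,0,1,7,10,9,4,6,3],[1,12,4,0,3,7,6,10,9],3,16906⟩,
  ⟨[3,4,6,7,0,1,2,9,12],[12,7,6,1,9,10,0,4,3],[4,3,1,9,10,0,6,12,7],3,1548⟩,
  ⟨[0,2,1,9,6,3,5,4,12],[6,12,7,0,1,3,10,4,9],[12,7,4,3,1,0,6,10,9],3,14369⟩,
  ⟨[6,7,2,0,1,3,5,4,9],[0,7,1,6,4,3,12,10,9],[12,7,6,9,1,0,10,4,3],3,10273⟩,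
  ⟨[10,0,11,5,6,15,16,1,20],[5,6,10,0,20,15,11,2,1],[10,6,7,5,2,0,3,4,1],5,2361183243634919606273⟩,
  ⟨[8,9,1,0,12,5,4,13,16],[0,16,1,5,4,13,12,8,9],[8,3,5,2,0,1,4,7,6],4,18882561⟩,
  ⟨[4,5,0,3,2,1,8,12,16],[4,1,0,16,13,5,8,12,9],[16,5,4,1,0,9,8,12,13],4,3408001⟩,
  ⟨[12,2,5,4,8,3,1,0,9],[4,5,13,0,12,16,9,8,1],[0,16,1,8,12,13,9,4,5],4,2359425⟩,
  ⟨[5,4,9,0,2,3,1,8],[9,12,13,8,1,0,5,4],[12,9,0,1,2,8,4,5],4,67239960⟩,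
  ⟨[4,8,16,20,0,12,2,1,3],[8,9,16,4,5,13,12,0,1],[16,1,12,0,13,5,8,9,4],4,1572901⟩,
  ⟨[0,2,12,1,3,5,6,4,8],[4,16,0,13,5,1,12,8,9],[16,13,12,4,9,8,5,0,1],4,9568321⟩,
  ⟨[12,5,13,4,8,1,0,9],[0,1,8,9,4,5,12,16],[8,6,5,3,4,2,0,1],4,301989921⟩,
  ⟨[20,3,15,4,1,0,2,5,10],[5,11,10,20,1,0,6,15,16],[20,15,0,1,2,5,11,10,6],5,74356621825⟩,
  ⟨[5,6,0,2,3,4,1,10,15],[20,6,5,11,1,10,16,0,15],[0,1,15,2,20,11,6,10,5],5,139854873089⟩,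
  ⟨[0,1,2,10,5,11,6,15,20],[10,11,5,20,1,0,16,15,6],[10,6,4,5,7,3,1,0,2],5,36511481857⟩,
  ⟨[15,5,0,1,4,2,3,10],[0,1,15,20,6,5,11,10],[15,11,10,6,5,2,1,0],5,10200551489⟩,
  ⟨[0,1,2,4,5,8,12,16],[4,8,5,9,0,1,16,12],[8,6,3,1,2,5,4,0],4,1074790913⟩,
  ⟨[4,5,8,0,1,9,12,16],[0,4,1,8,5,16,12,9],[8,5,6,4,3,1,0,2],4,553648161⟩,
  ⟨[0,2,1,12,16,4,8,20],[0,1,4,2,5,8,9,12],[8,6,2,3,5,4,1,0],4,17592254202369⟩,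
  ⟨[4,12,16,8,20,0,1,5],[0,12,9,8,2,1,4,5],[8,0,2,4,1,6,5,3],4,69273124897⟩,
  ⟨[0,1,8,6,10,4,2,12,14],[8,3,2,7,0,1,4,5,6],[4,1,6,7,0,3,2,5,8],2,193⟩,
  ⟨[10,11,15,5,6,0,1,20,25],[0,10,20,6,15,5,1,2,11],[10,6,5,7,1,0,4,3,2],5,36893558550523019329⟩,
  ⟨[16,12,9,5,8,1,20,0,4],[12,5,4,9,8,16,0,1,2],[0,3,2,1,4,6,8,7,5],4,68990009857⟩]

theorem ok1 : (C1.all Cert.ok && C1.map Cert.tripleS == (T.drop 40).take 40) = true := by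
  decide +kernel

/-- Certificates, chunk 2. -/
def C2 : List Cert := [
  ⟨[20,1,17,5,0,16,4,9,8,12,13],[8,13,12,2,1,0,6,10,4,9,5],[1,0,2,3,6,5,4,7,9,10,8],4,35188683964944⟩,
  ⟨[0,1,2,4,6,8],[8,0,2,4,6,1],[6,1,2,8,4,0],2,25⟩,
  ⟨[0,1,10,5,26,20,16,15,25,11,6,21],[20,15,16,0,12,11,7,10,1,2,6,5],[10,8,6,5,7,11,12,0,1,2,4,3],5,2305913379031678977⟩,
  ⟨[5,25,10,4,3,15,30,1,0,2,20],[15,16,7,6,5,0,11,2,1,12,10],[2,0,1,3,6,7,5,8,10,11,12],5,73967137872152626432⟩,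
  ⟨[24,12,20,2,16,8,5,0,1,3,4],[12,13,10,4,6,0,1,2,5,9,8],[9,3,8,10,0,1,2,4,6,7,5],4,6744441872⟩,
  ⟨[16,20,6,2,12,1,8,0,5,4,24],[1,4,0,2,6,5,8,10,9,13,12],[8,10,9,0,3,1,2,7,5,4,6],4,17609368076608⟩,
  ⟨[0,1,2,3,4,6],[6,1,2,8,4,0],[4,6,2,1,0,8],2,41⟩,
  ⟨[0,1,2,12,20,16,9,4,5,8,24],[13,0,1,10,2,5,4,6,8,12,9],[10,9,3,8,0,2,1,4,5,7,6],4,5385490464⟩,
  ⟨[0,2,1,3,6,9],[12,1,0,9,6,3],[9,3,1,0,6,12],3,2065⟩,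
  ⟨[24,1,4,5,0,12,13,20,8,9,16],[13,8,2,12,1,10,0,9,4,5,6],[9,10,8,2,5,4,6,1,7,3,0],4,4832891392⟩,
  ⟨[0,3,20,1,2,4,12,8,24,16,28],[12,6,9,8,1,10,0,2,13,4,5],[10,8,9,3,7,4,6,0,1,2,5],4,39729504512⟩,
  ⟨[16,12,28,5,8,20,2,0,1,4,24],[12,13,10,1,8,6,0,2,5,4,9],[9,7,8,10,5,4,6,0,2,1,3],4,4596958224⟩,
  ⟨[24,1,0,8,9,16,4,12,5,20,28],[12,13,10,1,4,2,5,0,8,9,6],[2,10,9,8,3,1,0,6,7,4,5],4,68753105152⟩,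
  ⟨[4,16,0,20,1,2,8,12,24,28,32],[12,13,10,5,8,1,9,4,2,0,6],[10,1,8,9,3,7,5,6,4,2,0],4,5369766144⟩]

theorem ok2 : (C2.all Cert.ok && C2.map Cert.tripleS == (T.drop 80).take 40) = true := by
  decide +kernel

theorem gT3 : ∀ t ∈ T.drop 120, t.Good := forall_drop_of_nil (by decide +kernel)

theorem gT2 : ∀ t ∈ T.drop 80, t.Good := forall_drop_of_chunk 40 (good_of_chunk ok2) gT3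

theorem gT1 : ∀ t ∈ T.drop 40, t.Good := forall_drop_of_chunk 40 (good_of_chunk ok1) gT2

theorem gT0 : ∀ t ∈ T.drop 0, t.Good := forall_drop_of_chunk 40 (good_of_chunk ok0) gT1

theorem gT : ∀ t ∈ T, t.Good := gT0

/-- The partitions, as column heights. -/
def PS : List (List ℕ) := [[1,1,1,1,1,1,1,1,1,1,1,1,1,1,1,1,1],[2,1,1,1,1,1,1,1,1,1,1,1,1,1,1,1],[2,2,1,1,1,1,1,1,1,1,1,1,1,1,1],[2,2,2,1,1,1,1,1,1,1,1,1,1,1],[2,2,2,2,1,1,1,1,1,1,1,1,1],[2,2,2,2,2,1,1,1,1,1,1,1],[2,2,2,2,2,2,1,1,1,1,1],[2,2,2,2,2,2,2,1,1,1],[2,2,2,2,2,2,2,2,1],[3,1,1,1,1,1,1,1,1,1,1,1,1,1,1],[3,2,1,1,1,1,1,1,1,1,1,1,1,1],[3,2,2,1,1,1,1,1,1,1,1,1,1],[3,2,2,2,1,1,1,1,1,1,1,1],[3,2,2,2,2,1,1,1,1,1,1],[3,2,2,2,2,2,1,1,1,1],[3,2,2,2,2,2,2,1,1],[3,2,2,2,2,2,2,2],[3,3,1,1,1,1,1,1,1,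1,1,1,1],[3,3,2,1,1,1,1,1,1,1,1,1],[3,3,2,2,1,1,1,1,1,1,1],[3,3,2,2,2,1,1,1,1,1],[3,3,2,2,2,2,1,1,1],[3,3,2,2,2,2,2,1],[3,3,3,1,1,1,1,1,1,1,1],[3,3,3,2,1,1,1,1,1,1],[3,3,3,2,2,1,1,1,1],[3,3,3,2,2,2,1,1],[3,3,3,2,2,2,2],[3,3,3,3,1,1,1,1,1],[3,3,3,3,2,1,1,1],[3,3,3,3,2,2,1],[3,3,3,3,3,1,1],[3,3,3,3,3,2],[4,1,1,1,1,1,1,1,1,1,1,1,1,1],[4,2,1,1,1,1,1,1,1,1,1,1,1],[4,2,2,1,1,1,1,1,1,1,1,1],[4,2,2,2,1,1,1,1,1,1,1],[4,2,2,2,2,1,1,1,1,1],[4,2,2,2,2,2,1,1,1],[4,2,2,2,2,2,2,1],[4,3,1,1,1,1,1,1,1,1,1,1],[4,3,2,1,1,1,1,1,1,1,1],[4,3,2,2,1,1,1,1,1,1],[4,3,2,2,2,1,1,1,1],[4,3,2,2,2,2,1,1],[4,3,2,2,2,2,2],[4,3,3,1,1,1,1,1,1,1],[4,3,3,2,1,1,1,1,1],[4,3,3,2,2,1,1,1],[4,3,3,2,2,2,1],[4,3,3,3,1,1,1,1],[4,3,3,3,2,1,1],[4,3,3,3,2,2],[4,3,3,3,3,1],[4,4,1,1,1,1,1,1,1,1,1]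,[4,4,2,1,1,1,1,1,1,1],[4,4,2,2,1,1,1,1,1],[4,4,2,2,2,1,1,1],[4,4,2,2,2,2,1],[4,4,3,1,1,1,1,1,1],[4,4,3,2,1,1,1,1],[4,4,3,2,2,1,1],[4,4,3,2,2,2],[4,4,3,3,1,1,1],[4,4,3,3,2,1],[4,4,3,3,3],[4,4,4,1,1,1,1,1],[4,4,4,2,1,1,1],[4,4,4,2,2,1],[4,4,4,3,1,1],[4,4,4,3,2],[4,4,4,4,1],[5,1,1,1,1,1,1,1,1,1,1,1,1],[5,2,1,1,1,1,1,1,1,1,1,1],[5,2,2,1,1,1,1,1,1,1,1],[5,2,2,2,1,1,1,1,1,1],[5,2,2,2,2,1,1,1,1],[5,2,2,2,2,2,1,1],[5,2,2,2,2,2,2],[5,3,1,1,1,1,1,1,1,1,1],[5,3,2,1,1,1,1,1,1,1],[5,3,2,2,1,1,1,1,1],[5,3,2,2,2,1,1,1],[5,3,2,2,2,2,1],[5,3,3,1,1,1,1,1,1],[5,3,3,2,1,1,1,1],[5,3,3,2,2,1,1],[5,3,3,2,2,2],[5,3,3,3,1,1,1],[5,3,3,3,2,1],[5,3,3,3,3],[5,4,1,1,1,1,1,1,1,1],[5,4,2,1,1,1,1,1,1],[5,4,2,2,1,1,1,1],[5,4,2,2,2,1,1],[5,4,2,2,2,2],[5,4,3,1,1,1,1,1],[5,4,3,2,1,1,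1],[5,4,3,2,2,1],[5,4,3,3,1,1],[5,4,3,3,2],[5,4,4,1,1,1,1],[5,4,4,2,1,1],[5,4,4,2,2],[5,4,4,3,1],[5,4,4,4],[5,5,1,1,1,1,1,1,1],[5,5,2,1,1,1,1,1],[5,5,2,2,1,1,1],[5,5,2,2,2,1],[5,5,3,1,1,1,1],[5,5,3,2,1,1],[5,5,3,2,2],[5,5,3,3,1],[5,5,4,1,1,1],[5,5,4,2,1],[5,5,4,3],[5,5,5,1,1],[5,5,5,2],[6,1,1,1,1,1,1,1,1,1,1,1],[6,2,1,1,1,1,1,1,1,1,1],[6,2,2,1,1,1,1,1,1,1],[6,2,2,2,1,1,1,1,1],[6,2,2,2,2,1,1,1],[6,2,2,2,2,2,1],[6,3,1,1,1,1,1,1,1,1],[6,3,2,1,1,1,1,1,1],[6,3,2,2,1,1,1,1],[6,3,2,2,2,1,1],[6,3,2,2,2,2],[6,3,3,1,1,1,1,1],[6,3,3,2,1,1,1],[6,3,3,2,2,1],[6,3,3,3,1,1],[6,3,3,3,2],[6,4,1,1,1,1,1,1,1],[6,4,2,1,1,1,1,1],[6,4,2,2,1,1,1],[6,4,2,2,2,1],[6,4,3,1,1,1,1],[6,4,3,2,1,1],[6,4,3,2,2],[6,4,3,3,1],[6,4,4,1,1,1],[6,4,4,2,1],[6,4,4,3],[6,5,1,1,1,1,1,1],[6,5,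2,1,1,1,1],[6,5,2,2,1,1],[6,5,2,2,2],[6,5,3,1,1,1],[6,5,3,2,1],[6,5,3,3],[6,5,4,1,1],[6,5,4,2],[6,5,5,1],[6,6,1,1,1,1,1],[6,6,2,1,1,1],[6,6,2,2,1],[6,6,3,1,1],[6,6,3,2],[6,6,4,1],[6,6,5],[7,1,1,1,1,1,1,1,1,1,1],[7,2,1,1,1,1,1,1,1,1],[7,2,2,1,1,1,1,1,1],[7,2,2,2,1,1,1,1],[7,2,2,2,2,1,1],[7,2,2,2,2,2],[7,3,1,1,1,1,1,1,1],[7,3,2,1,1,1,1,1],[7,3,2,2,1,1,1],[7,3,2,2,2,1],[7,3,3,1,1,1,1],[7,3,3,2,1,1],[7,3,3,2,2],[7,3,3,3,1],[7,4,1,1,1,1,1,1],[7,4,2,1,1,1,1],[7,4,2,2,1,1],[7,4,2,2,2],[7,4,3,1,1,1],[7,4,3,2,1],[7,4,3,3],[7,4,4,1,1],[7,4,4,2],[7,5,1,1,1,1,1],[7,5,2,1,1,1],[7,5,2,2,1],[7,5,3,1,1],[7,5,3,2],[7,5,4,1],[7,5,5],[7,6,1,1,1,1],[7,6,2,1,1],[7,6,2,2],[7,6,3,1],[7,6,4],[7,7,1,1,1],[7,7,2,1],[7,7,3],[8,1,1,1,1,1,1,1,1,1],[8,2,1,1,1,1,1,1,1],[8,2,2,1,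1,1,1,1],[8,2,2,2,1,1,1],[8,2,2,2,2,1],[8,3,1,1,1,1,1,1],[8,3,2,1,1,1,1],[8,3,2,2,1,1],[8,3,2,2,2],[8,3,3,1,1,1],[8,3,3,2,1],[8,3,3,3],[8,4,1,1,1,1,1],[8,4,2,1,1,1],[8,4,2,2,1],[8,4,3,1,1],[8,4,3,2],[8,4,4,1],[8,5,1,1,1,1],[8,5,2,1,1],[8,5,2,2],[8,5,3,1],[8,5,4],[8,6,1,1,1],[8,6,2,1],[8,6,3],[8,7,1,1],[8,7,2],[8,8,1],[9,1,1,1,1,1,1,1,1],[9,2,1,1,1,1,1,1],[9,2,2,1,1,1,1],[9,2,2,2,1,1],[9,2,2,2,2],[9,3,1,1,1,1,1],[9,3,2,1,1,1],[9,3,2,2,1],[9,3,3,1,1],[9,3,3,2],[9,4,1,1,1,1],[9,4,2,1,1],[9,4,2,2],[9,4,3,1],[9,4,4],[9,5,1,1,1],[9,5,2,1],[9,5,3],[9,6,1,1],[9,6,2],[9,7,1],[9,8],[10,1,1,1,1,1,1,1],[10,2,1,1,1,1,1],[10,2,2,1,1,1],[10,2,2,2,1],[10,3,1,1,1,1],[10,3,2,1,1],[10,3,2,2],[10,3,3,1],[10,4,1,1,1],[10,4,2,1],[10,4,3],[10,5,1,1],[10,5,2],[10,6,1],[10,7],[11,1,1,1,1,1,1],[11,2,1,1,1,1],[11,2,2,1,1],[11,2,2,2],[11,3,1,1,1],[11,3,2,1],[11,3,3],[11,4,1,1],[11,4,2],[11,5,1],[11,6],[12,1,1,1,1,1],[12,2,1,1,1],[12,2,2,1],[12,3,1,1],[12,3,2],[12,4,1],[12,5],[13,1,1,1,1],[13,2,1,1],[13,2,2],[13,3,1],[13,4],[14,1,1,1],[14,2,1],[14,3],[15,1,1],[15,2],[16,1],[17]]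

theorem hPS : partsF 17 17 17 = PS := by decide +kernel

/-- The statement for one partition. -/
def G (c : List ℕ) : Prop := Real3 (c : Multiset ℕ) (([5, 4, 4, 3, 1] : List ℕ) : Multiset ℕ) (([5, 4, 4, 3, 1] : List ℕ) : Multiset ℕ)

/-- Table, chunk 0. -/
def D0 : List ℕ := [252214775956832256,30787936387144,30787936387160,57178362937344,9127264376,6979780728,10201006168,11275534336,12349276160,30787936387268,118751014092800,127547107115008,6979780856,15569715320,17716936792,18791727104,2162984,171527572226048,14495973624,15569715448,24296227146,12351111168,26307919872,20938424568,26308706328,27380613208,28457123840,2163128,27380613316,26309754880,24162156544,27382972416,3342776,250692409425920,259488502448128,30602100856,31675842680,32749584472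,11278286848,12352028672,274881665236992,31675842808,33554890872,34896805976,18794479616,2163224,33554891000,34896806084,37048090624,26310672384,38120914944,24163991552,3342872,27384512512,327658223501312,39997341768,39997341784,11279171584,12352913408,39997341892,41343942656,18795364352,2163316,37048975360,26311557120,3342964,43491426304,44565168128,45638909952,38122717184,4260468,5702260,47781969944,48855728458,49661034826,51002949962,6488836,6619908,6849338,57177210904,58250969418,7275348,6488916,6619988,7406420,7537492,7668564,2163540,7799636,7930708,3343188,65766883352,66843263016,8323844,8454916,6226970,8717140,8323924,8454996,8848212]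

theorem tb0 : tableOK T [5, 4, 4, 3, 1] ((PS.drop 0).take 100) (D0.map lineDer) = true := by
  decide +kernel

/-- Table, chunk 1. -/
def D1 : List ℕ := [4260692,5702344,5702404,6849606,5702484,8160326,9110234,9110246,9241318,6226662,9110374,9241446,6226790,9339750,8160394,8160406,8160422,3343189,3342965,80799531032,81873272856,10159300,7275716,6489284,6620356,84020494360,7406788,7537860,7668932,2163908,7799988,7800004,7931076,3343540,3343556,8717492,8717508,8324292,8455364,8848564,8848580,4261060,10388042,5702836,5702852,38122717185,86167781432,10519832,8455365,6226663,7931077,8454997,45638909953,7930709,26311557121,27384512513,1610614052,2163909,6226971,2163541,2163317,3342873,3342777,89389006904,90462748728,91536490552,11044200,11175272,1610614053,93683974200,11044232,11175304,10519833,11437448,8848565,9110375,5702345,95831457848,11699480,8324293,9241319,7800005,8323925,44565168129,7799637,37048975361,11175273,7668933,8454917,7668565,18795364353,24163991553,27382972417,6620357,6619989,12352913409,26310672385,24162156545,6849339,2163225]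

theorem tb1 : tableOK T [5, 4, 4, 3, 1] ((PS.drop 100).take 100) (D1.map lineDer) = true := by
  decide +kernel

/-- Table, chunk 2. -/
def D2 : List ℕ := [2163129,96905199672,97978941496,99052683321,95831457849,86167781433,99052683320,11961736,8717509,9110247,7799989,8717141,43491426305,11044201,7537861,8323845,7537493,41343942657,38120914945,6489285,6488917,11279171585,37048090625,26309754881,6619909,18794479617,28457123841,12352028673,26307919873,2162985,100126425144,97978941497,93683974201,8717493,9110235,91536490553,7406789,66843263017,7406421,39997341893,7275717,7275349,39997341785,34896806085,27380613317,6488837,34896805977,27380613209,11278286849,12351111169,18791727105,12349276161,96905199673,90462748729,84020494361,65766883353,10159301,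58250969419,39997341769,33554891001,51002949963,33554890873,26308706329,32749584473,24296227147,17716936793,11275534337,89389006905,81873272857,57177210905,327658223501313,49661034827,31675842809,20938424569,31675842681,15569715449,15569715321,10201006169,80799531033,48855728459,274881665236993,30602100857,14495973625,6979780857,6979780729,47781969945,259488502448129,171527572226049,127547107115009,9127264377,250692409425921,118751014092801,57178362937345,30787936387269,30787936387161,30787936387145,252214775956832257]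

theorem tb2 : tableOK T [5, 4, 4, 3, 1] ((PS.drop 200).take 100) (D2.map lineDer) = true := by
  decide +kernel

theorem gP3 : ∀ c ∈ PS.drop 300, G c := forall_drop_of_nil (by decide +kernel)

theorem gP2 : ∀ c ∈ PS.drop 200, G c := forall_drop_of_chunk 100 (tableOK_good gT tb2) gP3

theorem gP1 : ∀ c ∈ PS.drop 100, G c := forall_drop_of_chunk 100 (tableOK_good gT tb1) gP2

theorem gP0 : ∀ c ∈ PS.drop 0, G c := forall_drop_of_chunk 100 (tableOK_good gT tb0) gP1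

theorem universal : Universal (cellsL (baseL 1 2)) (cellsL (baseL 1 2)).card := by
  rw [card_cellsL]
  exact universal_cellsL_of_all (good_baseL (by decide) (by decide)) (H := [5, 4, 4, 3, 1]) (by decide)
    (by simp) hPS gP0

end Crest.Agent.Saxl.Kron.B12
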