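import Crest.Agent.Lib.Saxl.BaseCert

/-!
# Base shape `baseL 1 3` (row 195, S0298): certificates generated by a search program.
-/

set_option autoImplicit false
set_option maxRecDepth 1000000

namespace Crest.Agent.Saxl.Kron.B13

open Crest.Agent.Saxl Crest.Agent.Saxl.Family

/-- The triples. -/
def T : List Triple := [
  ([1,1],[1,1],[1,1]),
  ([1],[1],[1]),
  ([1,1,1,1],[1,1,1,1],[1,1,1,1]),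
  ([1,1,1,1,1],[1,1,1,1,1],[1,1,1,1,1]),
  ([2,1],[2,1],[2,1]),
  ([2,2],[2,2],[2,2]),
  ([2,1,1,1],[2,1,1,1],[2,1,1,1]),
  ([2,2],[1,1,1,1],[2,2]),
  ([2,1,1,1,1],[2,1,1,1,1],[2,1,1,1,1]),
  ([2,2,1,1],[2,1,1,1,1],[2,1,1,1,1]),
  ([2,2,2],[2,1,1,1,1],[2,2,1,1]),
  ([2,2,2,2],[3,2,1,1,1],[3,3,1,1]),
  ([1,1,1],[2,1],[2,1]),
  ([3,2],[2,2,1],[2,2,1]),
  ([3,1,1],[2,1,1,1],[2,1,1,1]),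
  ([2,2,1],[2,1,1,1],[2,2,1]),
  ([2,2,1],[1,1,1,1,1],[2,2,1]),
  ([2,1,1,1],[1,1,1,1,1],[2,1,1,1]),
  ([3,2,2],[3,2,1,1],[3,2,1,1]),
  ([2,2,2,1],[2,2,1,1,1],[2,2,1,1,1]),
  ([3,3],[2,2,1,1],[2,2,1,1]),
  ([3,2,1],[2,2,1,1],[2,2,1,1]),
  ([3,2,2],[2,2,1,1,1],[2,2,1,1,1]),
  ([3,2,1,1],[2,2,1,1,1],[2,2,1,1,1]),
  ([3,3,1],[2,2,1,1,1],[2,2,1,1,1]),
  ([3,3,2],[3,2,1,1,1],[3,2,1,1,1]),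
  ([1,1,1,1],[2,2],[2,2]),
  ([2,2,1],[2,1,1,1],[2,1,1,1]),
  ([4,1,1],[2,2,1,1],[2,2,1,1]),
  ([3,2,1,1],[3,2,1,1],[4,2,1]),
  ([3,3,1,1],[3,2,1,1,1],[4,2,2]),
  ([2,2,2,1],[2,2,1,1,1],[4,2,1]),
  ([2,2,2,1],[3,2,1,1],[4,2,1]),
  ([4,1,1,1],[2,2,1,1,1],[2,2,1,1,1]),
  ([3,2,1,1],[2,2,1,1,1],[4,2,1]),
  ([2,2,2,2],[3,2,1,1,1],[4,2,2]),
  ([2,2,2,2],[3,2,1,1,1],[5,2,1]),
  ([3,1,1,1,1],[3,2,1,1],[4,2,1]),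
  ([3,1,1,1,1],[2,2,1,1,1],[4,2,1]),
  ([2,2,1,1,1],[3,2,1,1],[4,2,1]),
  ([2,1,1,1,1,1],[2,2,1,1,1],[2,2,1,1,1]),
  ([2,2,1,1,1],[2,2,1,1,1],[2,2,1,1,1]),
  ([2,2,2,1,1],[3,2,1,1,1],[5,2,1]),
  ([3,1,1,1,1],[2,2,1,1,1],[2,2,1,1,1]),
  ([2,1,1,1],[2,1,1,1],[2,2,1]),
  ([3,3,1,1,1],[2,2,2,2,1],[5,2,2]),
  ([2,1,1,1,1,1],[3,2,1,1],[4,2,1]),
  ([3,1,1,1,1,1,1],[4,3,1,1],[4,2,2,1]),
  ([3,1,1,1,1,1,1],[3,3,1,1,1],[4,2,2,1]),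
  ([2,1,1,1,1,1,1,1],[4,3,1,1],[4,2,2,1])]

/-- Certificates, chunk 0. -/
def C0 : List Cert := [
  ⟨[0,1],[1,0],[0,1],1,1⟩,
  ⟨[0],[0],[0],1,1⟩,
  ⟨[0,1,2,3],[1,0,2,3],[0,3,1,2],1,1⟩,
  ⟨[0,1,2,3,4],[2,0,1,3,4],[0,3,1,4,2],1,1⟩,
  ⟨[0,1,2],[0,1,2],[2,1,0],2,129⟩,
  ⟨[0,1,2,3],[3,0,1,2],[3,2,1,0],2,66⟩,
  ⟨[2,1,0,4,6],[0,1,6,2,4],[2,0,1,6,4],2,37⟩,
  ⟨[0,1,2,3],[2,4,6,0],[1,2,3,0],2,6⟩,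
  ⟨[0,1,2,4,6,8],[8,0,2,4,6,1],[6,1,2,8,4,0],2,25⟩,
  ⟨[0,1,2,3,4,6],[6,1,2,8,4,0],[4,6,2,1,0,8],2,41⟩,
  ⟨[2,4,5,3,0,1],[4,6,2,1,0,8],[6,4,3,2,0,1],2,41⟩,
  ⟨[3,6,7,4,1,0,9,10],[0,3,4,2,1,12,6,9],[6,9,2,1,5,3,0,4],3,4259857⟩,
  ⟨[2,0,4],[0,1,2],[2,1,0],2,65⟩,
  ⟨[4,3,1,0,2],[6,4,0,1,3],[4,0,1,3,6],3,532⟩,
  ⟨[0,1,2,3,6],[3,9,1,0,6],[9,1,6,0,3],3,2065⟩,
  ⟨[2,4,1,0,3],[2,4,6,0,1],[4,2,3,0,1],2,137⟩,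
  ⟨[0,1,2,3,4],[4,8,2,0,6],[4,3,2,1,0],2,9⟩,
  ⟨[0,1,2,4,6],[2,4,6,0,8],[6,1,4,0,2],2,9⟩,
  ⟨[1,0,2,3,4,6,7],[3,4,2,0,9,1,6],[9,1,0,2,6,4,3],3,1052738⟩,
  ⟨[2,4,5,3,0,6,1],[8,6,4,3,2,0,1],[4,8,1,0,6,2,3],2,169⟩,
  ⟨[3,4,5,0,1,2],[6,9,1,0,3,4],[6,1,3,9,4,0],3,2065⟩,
  ⟨[3,4,6,2,1,0],[0,6,3,4,1,9],[6,1,9,0,4,3],3,10257⟩,
  ⟨[1,0,2,4,3,6,7],[6,9,4,3,1,0,12],[9,4,0,6,12,1,3],3,2570⟩,
  ⟨[6,4,3,1,0,2,9],[0,1,12,9,3,4,6],[6,3,0,1,9,4,12],3,17425⟩,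
  ⟨[0,1,2,3,5,4,6],[6,1,9,0,12,4,3],[6,9,4,3,1,0,12],3,1057⟩,
  ⟨[1,7,6,2,0,3,4,5],[6,12,2,3,1,4,0,9],[9,0,1,2,3,12,6,4],3,2097954⟩,
  ⟨[0,2,4,6],[1,0,2,3],[0,3,1,2],2,20⟩,
  ⟨[0,2,3,1,4],[2,4,1,0,6],[2,4,6,1,0],2,41⟩,
  ⟨[0,1,3,2,4,8],[8,5,12,1,0,4],[8,12,5,1,0,4],4,4325505⟩,
  ⟨[1,8,0,2,4,5,12],[4,5,2,0,1,12,8],[8,5,4,1,3,0,2],4,4564451650⟩,
  ⟨[8,6,5,0,4,2,1,12],[12,8,5,2,4,16,0,1],[0,1,3,2,4,5,8,9],4,1100049547331⟩,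
  ⟨[4,5,12,9,0,1,8],[4,5,8,16,1,0,12],[8,3,0,1,2,5,4],4,553648161⟩,
  ⟨[0,4,5,1,8,9,12],[0,12,8,5,2,1,4],[8,4,3,1,2,5,0],4,1099513733121⟩,
  ⟨[0,3,1,2,4,8,12],[8,1,0,5,12,4,16],[12,8,1,5,16,4,0],4,4718625⟩,
  ⟨[0,8,1,2,4,5,12],[8,0,1,4,5,16,12],[8,4,5,1,3,2,0],4,270533185⟩,
  ⟨[0,9,8,1,12,5,4,13],[16,8,5,4,0,1,12,2],[1,0,3,8,9,4,5,2],4,2199291822098⟩,
  ⟨[11,10,6,5,1,0,15,16],[20,0,5,10,15,1,2,6],[10,6,5,1,0,2,3,4],5,36893558550523019298⟩,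
  ⟨[0,2,1,4,8,12,16],[0,1,4,8,2,12,5],[8,3,1,0,5,4,2],4,69809995809⟩,
  ⟨[0,8,4,12,16,1,2],[0,12,5,8,1,4,16],[8,0,1,4,5,3,2],4,1057793⟩,
  ⟨[0,1,12,8,4,5,16],[0,8,12,5,4,2,1],[8,2,0,1,4,3,5],4,35184373137921⟩]

theorem ok0 : (C0.all Cert.ok && C0.map Cert.tripleS == (T.drop 0).take 40) = true := by
  decide +kernel

/-- Certificates, chunk 1. -/
def C1 : List Cert := [
  ⟨[2,6,0,1,4,8,10],[4,2,3,0,1,6,8],[6,8,1,4,3,0,2],2,67⟩,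
  ⟨[0,1,2,3,4,6,8],[6,1,4,3,8,0,2],[6,0,4,2,3,8,1],2,37⟩,
  ⟨[10,20,6,5,1,0,11,15],[5,0,20,10,15,6,1,2],[10,5,6,0,1,3,4,2],5,1152992972862652481⟩,
  ⟨[3,2,6,1,0,9,12],[0,1,9,12,6,4,3],[9,12,0,1,3,4,6],3,6161⟩,
  ⟨[0,1,2,4,6],[0,2,1,6,4],[4,1,3,2,0],2,73⟩,
  ⟨[6,5,10,0,20,15,1,2,7],[20,6,5,11,10,16,15,0,1],[11,10,6,5,1,0,2,4,3],5,4398084261984⟩,
  ⟨[12,1,16,0,4,8,20],[8,12,0,1,2,4,5],[0,3,8,5,2,4,1],4,1099512684545⟩,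
  ⟨[4,16,20,8,1,0,2,12,24],[0,8,12,5,6,1,2,4,3],[12,4,0,1,5,9,2,8,3],4,1152926040093360129⟩,
  ⟨[0,1,2,4,8,12,16,20,24],[4,1,8,16,0,2,6,5,12],[12,9,3,4,8,1,5,2,0],4,68738367489⟩,
  ⟨[0,1,4,8,12,16,20,24,28],[0,1,8,6,3,4,2,12,5],[12,1,8,9,3,4,5,0,2],4,1152921573345198081⟩]

theorem ok1 : (C1.all Cert.ok && C1.map Cert.tripleS == (T.drop 40).take 40) = true := by
  decide +kernel

theorem gT2 : ∀ t ∈ T.drop 80, t.Good := forall_drop_of_nil (by decide +kernel)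

theorem gT1 : ∀ t ∈ T.drop 40, t.Good := forall_drop_of_chunk 40 (good_of_chunk ok1) gT2

theorem gT0 : ∀ t ∈ T.drop 0, t.Good := forall_drop_of_chunk 40 (good_of_chunk ok0) gT1

theorem gT : ∀ t ∈ T, t.Good := gT0

/-- The partitions, as column heights. -/
def PS : List (List ℕ) := [[1,1,1,1,1,1,1,1,1,1,1,1,1,1],[2,1,1,1,1,1,1,1,1,1,1,1,1],[2,2,1,1,1,1,1,1,1,1,1,1],[2,2,2,1,1,1,1,1,1,1,1],[2,2,2,2,1,1,1,1,1,1],[2,2,2,2,2,1,1,1,1],[2,2,2,2,2,2,1,1],[2,2,2,2,2,2,2],[3,1,1,1,1,1,1,1,1,1,1,1],[3,2,1,1,1,1,1,1,1,1,1],[3,2,2,1,1,1,1,1,1,1],[3,2,2,2,1,1,1,1,1],[3,2,2,2,2,1,1,1],[3,2,2,2,2,2,1],[3,3,1,1,1,1,1,1,1,1],[3,3,2,1,1,1,1,1,1],[3,3,2,2,1,1,1,1],[3,3,2,2,2,1,1],[3,3,2,2,2,2],[3,3,3,1,1,1,1,1],[3,3,3,2,1,1,1],[3,3,3,2,2,1],[3,3,3,3,1,1],[3,3,3,3,2],[4,1,1,1,1,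1,1,1,1,1,1],[4,2,1,1,1,1,1,1,1,1],[4,2,2,1,1,1,1,1,1],[4,2,2,2,1,1,1,1],[4,2,2,2,2,1,1],[4,2,2,2,2,2],[4,3,1,1,1,1,1,1,1],[4,3,2,1,1,1,1,1],[4,3,2,2,1,1,1],[4,3,2,2,2,1],[4,3,3,1,1,1,1],[4,3,3,2,1,1],[4,3,3,2,2],[4,3,3,3,1],[4,4,1,1,1,1,1,1],[4,4,2,1,1,1,1],[4,4,2,2,1,1],[4,4,2,2,2],[4,4,3,1,1,1],[4,4,3,2,1],[4,4,3,3],[4,4,4,1,1],[4,4,4,2],[5,1,1,1,1,1,1,1,1,1],[5,2,1,1,1,1,1,1,1],[5,2,2,1,1,1,1,1],[5,2,2,2,1,1,1],[5,2,2,2,2,1],[5,3,1,1,1,1,1,1],[5,3,2,1,1,1,1],[5,3,2,2,1,1],[5,3,2,2,2],[5,3,3,1,1,1],[5,3,3,2,1],[5,3,3,3],[5,4,1,1,1,1,1],[5,4,2,1,1,1],[5,4,2,2,1],[5,4,3,1,1],[5,4,3,2],[5,4,4,1],[5,5,1,1,1,1],[5,5,2,1,1],[5,5,2,2],[5,5,3,1],[5,5,4],[6,1,1,1,1,1,1,1,1],[6,2,1,1,1,1,1,1],[6,2,2,1,1,1,1],[6,2,2,2,1,1],[6,2,2,2,2],[6,3,1,1,1,1,1],[6,3,2,1,1,1],[6,3,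2,2,1],[6,3,3,1,1],[6,3,3,2],[6,4,1,1,1,1],[6,4,2,1,1],[6,4,2,2],[6,4,3,1],[6,4,4],[6,5,1,1,1],[6,5,2,1],[6,5,3],[6,6,1,1],[6,6,2],[7,1,1,1,1,1,1,1],[7,2,1,1,1,1,1],[7,2,2,1,1,1],[7,2,2,2,1],[7,3,1,1,1,1],[7,3,2,1,1],[7,3,2,2],[7,3,3,1],[7,4,1,1,1],[7,4,2,1],[7,4,3],[7,5,1,1],[7,5,2],[7,6,1],[7,7],[8,1,1,1,1,1,1],[8,2,1,1,1,1],[8,2,2,1,1],[8,2,2,2],[8,3,1,1,1],[8,3,2,1],[8,3,3],[8,4,1,1],[8,4,2],[8,5,1],[8,6],[9,1,1,1,1,1],[9,2,1,1,1],[9,2,2,1],[9,3,1,1],[9,3,2],[9,4,1],[9,5],[10,1,1,1,1],[10,2,1,1],[10,2,2],[10,3,1],[10,4],[11,1,1,1],[11,2,1],[11,3],[12,1,1],[12,2],[13,1],[14]]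

theorem hPS : partsF 14 14 14 = PS := by decide +kernel

/-- The statement for one partition. -/
def G (c : List ℕ) : Prop := Real3 (c : Multiset ℕ) (([5, 4, 2, 2, 1] : List ℕ) : Multiset ℕ) (([5, 4, 2, 2, 1] : List ℕ) : Multiset ℕ)

/-- Table, chunk 0. -/
def D0 : List ℕ := [252223570439110664,30789010456584,30789010063440,3758948432,31893621981302,9261973622,10335715446,1507498,30789011537928,3759800360,3759997008,3894313078,18926829686,2556200,180323665117200,23085908164,17450450984,20940652560,2949416,22012166340,25235619856,24161878032,26309361680,3342664,30789010063780,3758948772,3761701284,20941701136,2556372,3965098,3759997348,33556742152,24162926608,2556420,26310410256,3080708,2949636,3211780,35974086672,4391380,4489766,4620458,4391428,4489718,4096502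,4751816,4096503,39997341704,41072934920,5309044,5440116,2556532,45365919752,5702260,3080820,2949748,3211860,3211892,5538120,4391508,4391540,5931718,4096614,4489719,3211781,5014118,2949749,4620459,2949637,3342665,49661018120,5309156,5440228,2556644,5014119,5702372,3080932,2949860,3212004,4391429,4391652,3080821,4489767,3080709,26309361681,2556533,2556421,24161878033,3965099,2949417,6193208,6324506,5702373,4391509,5440229,5702261,4391381,26310410257,5440117,24162926609]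

theorem tb0 : tableOK T [5, 4, 2, 2, 1] ((PS.drop 0).take 100) (D0.map lineDer) = true := by
  decide +kernel

/-- Table, chunk 1. -/
def D1 : List ℕ := [25235619857,2556373,20940652561,2556201,1507499,6455352,5309157,45365919753,35974086673,5309045,33556742153,22012166341,20941701137,17450450985,18926829687,10335715447,49661018121,41072934921,3759997349,3761701285,23085908165,3894313079,9261973623,39997341705,3758948773,180323665117201,3759997009,31893621981303,30789010063781,3759800361,3758948433,30789011537929,30789010063441,30789010456585,252223570439110665]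

theorem tb1 : tableOK T [5, 4, 2, 2, 1] ((PS.drop 100).take 100) (D1.map lineDer) = true := by
  decide +kernel

theorem gP2 : ∀ c ∈ PS.drop 200, G c := forall_drop_of_nil (by decide +kernel)

theorem gP1 : ∀ c ∈ PS.drop 100, G c := forall_drop_of_chunk 100 (tableOK_good gT tb1) gP2

theorem gP0 : ∀ c ∈ PS.drop 0, G c := forall_drop_of_chunk 100 (tableOK_good gT tb0) gP1

theorem universal : Universal (cellsL (baseL 1 3)) (cellsL (baseL 1 3)).card := by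
  rw [card_cellsL]
  exact universal_cellsL_of_all (good_baseL (by decide) (by decide)) (H := [5, 4, 2, 2, 1]) (by decide)
    (by simp) hPS gP0

end Crest.Agent.Saxl.Kron.B13
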