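import Crest.Agent.Lib.Saxl.BaseCert

/-!
# Base shape `baseL 3 2` (row 195, S0298): certificates generated by a search program.
-/

set_option autoImplicit false
set_option maxRecDepth 1000000

namespace Crest.Agent.Saxl.Kron.B32

open Crest.Agent.Saxl Crest.Agent.Saxl.Family

/-- The triples. -/
def T : List Triple := [
  ([1,1],[1,1],[1,1]),
  ([1,1,1],[1,1,1],[1,1,1]),
  ([2,1,1,1],[2,2,1],[2,2,1]),
  ([2,2,1],[2,2,1],[2,2,1]),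
  ([2,2,2,1,1],[3,3,2],[3,3,2]),
  ([2,2,2,2],[3,3,2],[3,3,2]),
  ([3,1,1],[2,2,1],[2,2,1]),
  ([2,2,1],[2,2,1],[3,2]),
  ([3,2,2,1],[3,3,2],[3,3,2]),
  ([2,2,2],[2,2,2],[3,3]),
  ([3,3,2],[3,3,2],[3,3,2]),
  ([2,1,1,1],[2,2,1],[3,2]),
  ([4,2,1,1],[3,3,2],[3,3,2]),
  ([3,2,2,1],[3,3,2],[3,3,2]),
  ([2,2,2,2],[3,3,2],[3,3,2]),
  ([2,2,2,1,1],[3,3,2],[3,3,2])]

/-- Certificates, chunk 0. -/
def C0 : List Cert := [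
  ⟨[0,1],[1,0],[0,1],1,1⟩,
  ⟨[0,1,2],[2,0,1],[0,1,2],1,1⟩,
  ⟨[2,0,1,4,6],[0,1,2,3,4],[4,1,2,3,0],2,67⟩,
  ⟨[2,3,0,1,4],[2,3,0,1,4],[4,1,0,3,2],2,129⟩,
  ⟨[9,1,0,4,6,3,7,12],[6,7,2,4,0,5,1,3],[1,3,2,0,4,5,6,7],3,16778248⟩,
  ⟨[1,6,9,0,4,3,7,10],[6,1,7,5,0,4,3,2],[6,7,4,5,3,1,0,2],3,50335746⟩,
  ⟨[3,1,2,0,6],[6,1,0,4,3],[0,6,1,4,3],3,5153⟩,
  ⟨[6,1,0,3,4],[1,3,6,4,0],[4,3,2,1,0],3,4162⟩,
  ⟨[9,1,0,2,4,3,6,7],[3,1,6,2,7,5,0,4],[7,6,4,5,0,2,1,3],3,83887112⟩,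
  ⟨[0,1,7,3,4,6],[6,0,7,3,1,4],[5,0,1,2,4,3],3,8770⟩,
  ⟨[2,1,0,7,3,5,4,6],[7,2,0,1,6,4,3,5],[7,6,0,5,3,4,2,1],3,2703489⟩,
  ⟨[0,1,3,6,9],[6,0,1,3,4],[3,2,1,0,4],3,4225⟩,
  ⟨[8,1,0,12,2,3,4,5],[9,8,1,2,0,6,5,4],[1,8,9,2,6,4,5,0],4,1133872415746⟩,
  ⟨[9,1,0,2,4,3,6,7],[3,1,6,2,7,5,0,4],[7,6,4,5,0,2,1,3],3,83887112⟩,
  ⟨[1,6,9,0,4,3,7,10],[6,1,7,5,0,4,3,2],[6,7,4,5,3,1,0,2],3,50335746⟩,
  ⟨[9,1,0,4,6,3,7,12],[6,7,2,4,0,5,1,3],[1,3,2,0,4,5,6,7],3,16778248⟩]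

theorem ok0 : (C0.all Cert.ok && C0.map Cert.tripleS == (T.drop 0).take 40) = true := by
  decide +kernel

theorem gT1 : ∀ t ∈ T.drop 40, t.Good := forall_drop_of_nil (by decide +kernel)

theorem gT0 : ∀ t ∈ T.drop 0, t.Good := forall_drop_of_chunk 40 (good_of_chunk ok0) gT1

theorem gT : ∀ t ∈ T, t.Good := gT0

/-- The partitions, as column heights. -/
def PS : List (List ℕ) := [[1,1,1,1,1,1,1,1],[2,1,1,1,1,1,1],[2,2,1,1,1,1],[2,2,2,1,1],[2,2,2,2],[3,1,1,1,1,1],[3,2,1,1,1],[3,2,2,1],[3,3,1,1],[3,3,2],[4,1,1,1,1],[4,2,1,1],[4,2,2],[4,3,1],[4,4],[5,1,1,1],[5,2,1],[5,3],[6,1,1],[6,2],[7,1],[8]]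

theorem hPS : partsF 8 8 8 = PS := by decide +kernel

/-- The statement for one partition. -/
def G (c : List ℕ) : Prop := Real3 (c : Multiset ℕ) (([3, 3, 2] : List ℕ) : Multiset ℕ) (([3, 3, 2] : List ℕ) : Multiset ℕ)

/-- Table, chunk 0. -/
def D0 : List ℕ := [1610809352,327704,458776,64,80,851992,950296,128,1212424,160,1474584,192,1212425,212,228,1474585,950297,244,851993,458777,327705,1610809353]

theorem tb0 : tableOK T [3, 3, 2] ((PS.drop 0).take 100) (D0.map lineDer) = true := by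
  decide +kernel

theorem gP1 : ∀ c ∈ PS.drop 100, G c := forall_drop_of_nil (by decide +kernel)

theorem gP0 : ∀ c ∈ PS.drop 0, G c := forall_drop_of_chunk 100 (tableOK_good gT tb0) gP1

theorem universal : Universal (cellsL (baseL 3 2)) (cellsL (baseL 3 2)).card := by
  rw [card_cellsL]
  exact universal_cellsL_of_all (good_baseL (by decide) (by decide)) (H := [3, 3, 2]) (by decide)
    (by simp) hPS gP0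

end Crest.Agent.Saxl.Kron.B32
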